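import Vale.Agent.P065.UB.H415.Cherry

/-!
# P065, upper bound: output of [CENTRE], cherry form (helper415): literal Props
-/

set_option autoImplicit false

namespace Vale.Agent.P065.UB.H415

open Finset Vale.Agent.P065.UB Vale.Agent.P065.UB.RankAux Vale.Agent.P065.H183

open Classical in
/-- **output of [CENTRE]** (cherry form). `c` is a centre, `w0` its window, `m0 ∈ I w0` a slope;
`Pr` is a set of pairs `(a, q)`, `a` joined to `c` in `w0`, `a` joined to `q` in `Wd (a, q) ≠ w0`,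
and the slope of `a' q` is in `I (Wd (a, q))` where `a' = prj m0 c a` is the point with the abscissa
of `a` on the line of slope `m0` through `c` (exactly collinear apexes, no error).
`sc`: any side condition on flags `(x, w)`, here: the sector `I w` of `x` has few points of `Q`. -/
structure Cher (K lam : ℝ) (Q : Finset Pt) (W : Finset ℕ) (I : ℕ → Set ℝ) (R : ℕ → Finset Pt)
    (c : Pt) (w0 : ℕ) (m0 : ℝ) (Pr : Finset (Pt × Pt)) (Wd : Pt × Pt → ℕ) : Prop where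
  w0W : w0 ∈ W
  cQ : c ∈ Q
  m0I : m0 ∈ I w0
  card : (#Q : ℝ) ^ 2 ≤ K * lam * #Pr
  mem1 : ∀ e ∈ Pr, e.1 ∈ Q
  mem2 : ∀ e ∈ Pr, e.2 ∈ Q
  /-- `a` is joined to `c` in `w0` -/
  jc : ∀ e ∈ Pr, Jn I R w0 c e.1
  wdW : ∀ e ∈ Pr, Wd e ∈ W
  wd0 : ∀ e ∈ Pr, Wd e ≠ w0
  /-- `a` is joined to `q` in `Wd (a, q)` -/
  jq : ∀ e ∈ Pr, Jn I R (Wd e) e.1 e.2
  /-- **exact**: the projected apex sees `q` in the same window -/
  ex : ∀ e ∈ Pr, sl (prj m0 c e.1) e.2 ∈ I (Wd e)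
  /-- few points in the sectors of all flags used -/
  secc : lam * #{z ∈ Q | sl c z ∈ I w0} ≤ K * #Q
  seca0 : ∀ e ∈ Pr, lam * #{z ∈ Q | sl e.1 z ∈ I w0} ≤ K * #Q
  seca : ∀ e ∈ Pr, lam * #{z ∈ Q | sl e.1 z ∈ I (Wd e)} ≤ K * #Q
  secq : ∀ e ∈ Pr, lam * #{z ∈ Q | sl e.2 z ∈ I (Wd e)} ≤ K * #Q
  /-- all `a` on one side of `c` -/
  side : (∀ e ∈ Pr, c.1 < e.1.1) ∨ (∀ e ∈ Pr, e.1.1 < c.1)
  /-- all `q` on one side of `l0` -/
  above : (∀ e ∈ Pr, ht m0 c < ht m0 e.2) ∨ (∀ e ∈ Pr, ht m0 e.2 < ht m0 c)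

/-- **[CENTRE], cherry form** -/
def StCher : Prop :=
  ∃ C : ℕ, ∀ (K lam : ℝ) (Q : Finset Pt) (W : Finset ℕ) (I : ℕ → Set ℝ) (R : ℕ → Finset Pt),
    JView K lam Q W I R → K ^ C ≤ lam → lam ^ 2 ≤ #Q →
    ∃ (c : Pt) (w0 : ℕ) (m0 : ℝ) (Pr : Finset (Pt × Pt)) (Wd : Pt × Pt → ℕ),
      Cher (K ^ C) lam Q W I R c w0 m0 Pr Wd

end Vale.Agent.P065.UB.H415
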