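import Vale.Agent.P065.UB.H415.Cher
import Vale.Agent.P065.UB.H616.Chart

/-!
# P065, upper bound: the chart of a `Cher` (helper415)

With `m0`, `c` from `Cher` and 616's chart `x = chX m0 c`, `y = chY m0 c`, `U = chU c`:
`x q - U a * y q = zt m0 (sl a' q) ∈ Zw m0 (I (Wd (a, q)))` EXACTLY, and the sets `Zw m0 (I w)`
(`w ≠ w0`) are pairwise disjoint and order connected. For fixed `q` the label `Wd (a, q)` has
connected classes with respect to the abscissa of `a`.
-/

set_option autoImplicit false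

namespace Vale.Agent.P065.UB.H415

open Finset Vale.Agent.P065.UB Vale.Agent.P065.UB.RankAux Vale.Agent.P065.H183
open Vale.Agent.P065.UB.H616

theorem chV_prj (m : ℝ) (c a : Pt) : chV m c (prj m c a) = 0 := by
  unfold chV
  rw [ht_prj, sub_self]

theorem chU_prj (m : ℝ) (c a : Pt) : chU c (prj m c a) = chU c a := rfl

/-- the class function of the apex `a` -/
noncomputable def cf (m0 : ℝ) (c a q : Pt) : ℝ := chX m0 c q - chU c a * chY m0 c q

theorem cf_eq {m0 : ℝ} {c a q : Pt} (haq : a.1 ≠ q.1) (hv : chV m0 c q ≠ 0) :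
    cf m0 c a q = zt m0 (sl (prj m0 c a) q) := by
  unfold cf
  rw [← chU_prj m0 c a]
  exact zt_sl_on m0 c (chV_prj m0 c a) haq hv

/-- the class function in the original coordinates -/
theorem cf_div {m0 : ℝ} {c a q : Pt} : cf m0 c a q = (q.1 - a.1) / chV m0 c q := by
  unfold cf chX chY chU
  rw [mul_one_div, ← sub_div]
  congr 1
  ring

section
variable {K K' lam : ℝ} {Q : Finset Pt} {W : Finset ℕ} {I : ℕ → Set ℝ} {R : ℕ → Finset Pt}
  {c : Pt} {w0 : ℕ} {m0 : ℝ} {Pr : Finset (Pt × Pt)} {Wd : Pt × Pt → ℕ}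

theorem Cher.V_ne (h : Cher K lam Q W I R c w0 m0 Pr Wd) {e : Pt × Pt} (he : e ∈ Pr) :
    chV m0 c e.2 ≠ 0 := by
  unfold chV
  rcases h.above with h1 | h1
  · exact sub_ne_zero.2 (h1 e he).ne'
  · exact sub_ne_zero.2 (h1 e he).ne

theorem Cher.V_sign (h : Cher K lam Q W I R c w0 m0 Pr Wd) :
    (∀ e ∈ Pr, 0 < chV m0 c e.2) ∨ (∀ e ∈ Pr, chV m0 c e.2 < 0) := by
  unfold chV
  rcases h.above with h1 | h1
  · exact Or.inl fun e he => sub_pos.2 (h1 e he)
  · exact Or.inr fun e he => sub_neg.2 (h1 e he)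

theorem Cher.U_ne (h : Cher K lam Q W I R c w0 m0 Pr Wd) {e : Pt × Pt} (he : e ∈ Pr) :
    chU c e.1 ≠ 0 := by
  unfold chU
  exact sub_ne_zero.2 (h.jc e he).2.2.1.symm

theorem Cher.U_sign (h : Cher K lam Q W I R c w0 m0 Pr Wd) :
    (∀ e ∈ Pr, 0 < chU c e.1) ∨ (∀ e ∈ Pr, chU c e.1 < 0) := by
  unfold chU
  rcases h.side with h1 | h1
  · exact Or.inl fun e he => sub_pos.2 (h1 e he)
  · exact Or.inr fun e he => sub_neg.2 (h1 e he)

/-- **exact class functions** -/
theorem Cher.cf_eq' (h : Cher K lam Q W I R c w0 m0 Pr Wd) {e : Pt × Pt} (he : e ∈ Pr) :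
    cf m0 c e.1 e.2 = zt m0 (sl (prj m0 c e.1) e.2) :=
  cf_eq (h.jq e he).2.2.1 (h.V_ne he)

theorem Cher.cf_mem (h : Cher K lam Q W I R c w0 m0 Pr Wd) {e : Pt × Pt} (he : e ∈ Pr) :
    cf m0 c e.1 e.2 ∈ Zw m0 (I (Wd e)) := by
  rw [h.cf_eq' he]
  exact mem_Zw m0 (h.ex e he)

theorem Cher.m0_notin (h : Cher K lam Q W I R c w0 m0 Pr Wd) (hV : JView K' lam Q W I R)
    {w : ℕ} (hw : w ∈ W) (hne : w ≠ w0) : m0 ∉ I w := fun hm =>
  Set.disjoint_left.1 (hV.disj w hw w0 h.w0W hne) hm h.m0I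

theorem Cher.Zw_conn (h : Cher K lam Q W I R c w0 m0 Pr Wd) (hV : JView K' lam Q W I R)
    {w : ℕ} (hw : w ∈ W) (hne : w ≠ w0) : (Zw m0 (I w)).OrdConnected :=
  Zw_ordConnected (hV.conn w hw) (h.m0_notin hV hw hne)

theorem Cher.Zw_disj (_h : Cher K lam Q W I R c w0 m0 Pr Wd) (hV : JView K' lam Q W I R)
    {w w' : ℕ} (hw : w ∈ W) (hw' : w' ∈ W) (hne : w ≠ w') :
    Disjoint (Zw m0 (I w)) (Zw m0 (I w')) :=
  Zw_disjoint m0 (hV.disj w hw w' hw' hne)

/-- if a value lies in the intervals of two windows, the windows are equal -/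
theorem Cher.Zw_inj (h : Cher K lam Q W I R c w0 m0 Pr Wd) (hV : JView K' lam Q W I R)
    {w w' : ℕ} (hw : w ∈ W) (hw' : w' ∈ W) {z : ℝ} (hz : z ∈ Zw m0 (I w))
    (hz' : z ∈ Zw m0 (I w')) : w = w' := by
  by_contra hne
  exact Set.disjoint_left.1 (h.Zw_disj hV hw hw' hne) hz hz'

/-- **the label of `(a, q)` is determined by the value of the class function** -/
theorem Cher.label_of (h : Cher K lam Q W I R c w0 m0 Pr Wd) (hV : JView K' lam Q W I R)
    {e : Pt × Pt} (he : e ∈ Pr) {w : ℕ} (hw : w ∈ W) (hz : cf m0 c e.1 e.2 ∈ Zw m0 (I w)) :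
    Wd e = w :=
  h.Zw_inj hV (h.wdW e he) hw (h.cf_mem he) hz

/-- **connected classes**: for fixed `q` the label has connected classes in the abscissa of `a` -/
theorem Cher.label_conn (h : Cher K lam Q W I R c w0 m0 Pr Wd) (hV : JView K' lam Q W I R)
    {a1 a2 a3 q : Pt} (h1 : (a1, q) ∈ Pr) (h2 : (a2, q) ∈ Pr) (h3 : (a3, q) ∈ Pr)
    (h12 : a1.1 ≤ a2.1) (h23 : a2.1 ≤ a3.1) (hW : Wd (a1, q) = Wd (a3, q)) :
    Wd (a2, q) = Wd (a1, q) := by
  have m1 := h.cf_mem h1
  have m3 := h.cf_mem h3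
  rw [← hW] at m3
  simp only at m1 m3
  have hc := h.Zw_conn hV (h.wdW _ h1) (h.wd0 _ h1)
  apply h.label_of hV h2 (h.wdW _ h1)
  simp only
  rw [cf_div] at m1 m3 ⊢
  rcases (h.V_ne h2).lt_or_gt with hv | hv
  · simp only at hv
    refine hc.out m1 m3 ⟨?_, ?_⟩
    · exact (div_le_div_right_of_neg hv).2 (by linarith)
    · exact (div_le_div_right_of_neg hv).2 (by linarith)
  · simp only at hv
    refine hc.out m3 m1 ⟨?_, ?_⟩
    · exact (div_le_div_iff_of_pos_right hv).2 (by linarith)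
    · exact (div_le_div_iff_of_pos_right hv).2 (by linarith)

end

/-! ### the line through two joined points meets the old line at infinity in the window -/

/-- the point of `{y = 0}` on the chart line through `q`, `q'` is `zt m0 (sl q q')` -/
theorem chart_line {m0 : ℝ} {c q q' : Pt} (hq : chV m0 c q ≠ 0) (hq' : chV m0 c q' ≠ 0)
    (hne : q.1 ≠ q'.1) (hm : sl q q' ≠ m0) :
    (chX m0 c q - zt m0 (sl q q')) * chY m0 c q' = (chX m0 c q' - zt m0 (sl q q')) * chY m0 c q := by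
  have e := chV_eq m0 c hne
  have hs : sl q q' - m0 ≠ 0 := sub_ne_zero.2 hm
  have hU : chU c q' - chU c q = q'.1 - q.1 := by unfold chU; ring
  unfold chX chY zt
  field_simp
  rw [← hU] at e
  linear_combination e

/-- **CORE LEMMA, exact form** (822 with constant 1): if `q`, `q'` are seen by the class `u` in the
window interval `Z` (values of `x - u y`) and the line `q q'` meets `{y = 0}` in `Z` too, then the
two values of `x - u y` differ by at most `|Z| |y - y'| / |y|`. -/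
theorem core_exact {x x' y y' u z lo hi : ℝ}
    (hline : (x - z) * y' = (x' - z) * y)
    (h1 : lo ≤ x - u * y) (h2 : x - u * y ≤ hi) (h3 : lo ≤ z) (h4 : z ≤ hi) :
    |(x - u * y) - (x' - u * y')| * |y| ≤ (hi - lo) * |y - y'| := by
  have e : ((x - u * y) - (x' - u * y')) * y = (x - u * y - z) * (y - y') := by
    linear_combination hline
  rw [← abs_mul, e, abs_mul]
  apply mul_le_mul_of_nonneg_right _ (abs_nonneg _)
  rw [abs_le]
  constructor <;> linarith

end Vale.Agent.P065.UB.H415
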