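import Vale.Agent.P065.UB.H415.CherDefs

/-!
# P065, upper bound: [CENTRE], cherry form: proof of `StCher` (helper415)
-/

set_option autoImplicit false

namespace Vale.Agent.P065.UB.H415

open Finset Vale.Agent.P065.UB Vale.Agent.P065.UB.RankAux Vale.Agent.P065.H183

open Classical in
/-- all joined pairs -/
noncomputable def JJ (Q : Finset Pt) (W : Finset ℕ) (I : ℕ → Set ℝ) (R : ℕ → Finset Pt) :
    Finset (Pt × Pt) :=
  {e ∈ Q ×ˢ Q | ∃ w ∈ W, Jn I R w e.1 e.2}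

theorem mem_JJ {Q : Finset Pt} {W : Finset ℕ} {I : ℕ → Set ℝ} {R : ℕ → Finset Pt}
    {e : Pt × Pt} : e ∈ JJ Q W I R ↔ (e.1 ∈ Q ∧ e.2 ∈ Q) ∧ ∃ w ∈ W, Jn I R w e.1 e.2 := by
  classical
  simp only [JJ, Finset.mem_filter, Finset.mem_product]

theorem mem_Sw' {T : Finset Pt} {I : Set ℝ} {e : Pt × Pt} :
    e ∈ Sw T I ↔ (e.1 ∈ T ∧ e.2 ∈ T) ∧ e.1.1 < e.2.1 ∧ sl e.1 e.2 ∈ I := by
  classical
  simp only [Sw, Finset.mem_filter, Finset.mem_product]

/-- many joined pairs -/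
theorem card_JJ {K lam : ℝ} {Q : Finset Pt} {W : Finset ℕ} {I : ℕ → Set ℝ}
    {R : ℕ → Finset Pt} (h : JView K lam Q W I R) (hK : K ^ 26 ≤ lam)
    (hlam : lam ^ 2 ≤ #Q) : (#Q : ℝ) ^ 2 ≤ 2 * K ^ 8 * #(JJ Q W I R) := by
  classical
  have hK2 := h.two
  have hK1 : 1 ≤ K := by linarith
  have hK0 : 0 < K := by linarith
  have hl1 := h.one
  have hl0 : 0 < lam := by linarith
  set N : ℝ := (#Q : ℝ) with hN
  have hN1 : lam ≤ N := by nlinarith
  have hN0 : 0 < N := by linarith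
  -- one window
  have hw1 : ∀ w ∈ W, N ^ 2 ≤ K ^ 7 * lam ^ 2 * (#(Sw (R w) (I w)) + 1) := by
    intro w hw
    have hj := h.join w hw (R w) (Finset.Subset.refl _)
    have hr := h.cardR' w hw
    have h6 : N ^ 6 ≤ (K * lam * #(R w)) ^ 6 := pow_le_pow_left₀ hN0.le hr 6
    have h7 : N ^ 2 * N ^ 4 ≤ K ^ 7 * lam ^ 2 * (#(Sw (R w) (I w)) + 1) * N ^ 4 := by
      calc N ^ 2 * N ^ 4 = N ^ 6 := by ring
        _ ≤ (K * lam * #(R w)) ^ 6 := h6
        _ = K ^ 6 * lam ^ 2 * (lam ^ 4 * (#(R w) : ℝ) ^ 6) := by ring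
        _ ≤ K ^ 6 * lam ^ 2 * (K * N ^ 4 * (#(Sw (R w) (I w)) + 1)) :=
            mul_le_mul_of_nonneg_left hj (by positivity)
        _ = K ^ 7 * lam ^ 2 * (#(Sw (R w) (I w)) + 1) * N ^ 4 := by ring
    exact le_of_mul_le_mul_right h7 (by positivity)
  -- disjoint union
  have hsum : ∑ w ∈ W, #(Sw (R w) (I w)) ≤ #(JJ Q W I R) := by
    rw [← Finset.card_biUnion]
    · apply Finset.card_le_card
      intro e he
      obtain ⟨w, hw, he⟩ := Finset.mem_biUnion.1 he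
      obtain ⟨⟨h1, h2⟩, h3, h4⟩ := mem_Sw'.1 he
      exact mem_JJ.2 ⟨⟨h.subR w hw h1, h.subR w hw h2⟩, w, hw, h1, h2, h3.ne, h4⟩
    · intro w hw w' hw' hne
      rw [Function.onFun, Finset.disjoint_left]
      intro e he he'
      exact Set.disjoint_left.1 (h.disj w hw w' hw' hne) (mem_Sw'.1 he).2.2
        (mem_Sw'.1 he').2.2
  have hsumR : (∑ w ∈ W, (#(Sw (R w) (I w)) : ℝ)) ≤ #(JJ Q W I R) := by exact_mod_cast hsum
  have hS : #W * N ^ 2 ≤ K ^ 7 * lam ^ 2 * (#(JJ Q W I R) + #W) := by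
    calc #W * N ^ 2 = ∑ _w ∈ W, N ^ 2 := by rw [Finset.sum_const, nsmul_eq_mul]
      _ ≤ ∑ w ∈ W, K ^ 7 * lam ^ 2 * ((#(Sw (R w) (I w)) : ℝ) + 1) := Finset.sum_le_sum hw1
      _ = K ^ 7 * lam ^ 2 * ((∑ w ∈ W, (#(Sw (R w) (I w)) : ℝ)) + #W) := by
          rw [← Finset.mul_sum, Finset.sum_add_distrib, Finset.sum_const, nsmul_eq_mul, mul_one]
      _ ≤ K ^ 7 * lam ^ 2 * (#(JJ Q W I R) + #W) := by
          apply mul_le_mul_of_nonneg_left _ (by positivity)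
          linarith
  have h1 : N ^ 2 ≤ K ^ 8 * (#(JJ Q W I R) + #W) := by
    have : lam ^ 2 * N ^ 2 ≤ lam ^ 2 * (K ^ 8 * (#(JJ Q W I R) + #W)) := by
      calc lam ^ 2 * N ^ 2 ≤ K * #W * N ^ 2 := mul_le_mul_of_nonneg_right h.cardW' (by positivity)
        _ = K * (#W * N ^ 2) := by ring
        _ ≤ K * (K ^ 7 * lam ^ 2 * (#(JJ Q W I R) + #W)) := mul_le_mul_of_nonneg_left hS hK0.le
        _ = _ := by ring
    exact le_of_mul_le_mul_left this (by positivity)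
  have h2 : K ^ 8 * (#W : ℝ) ≤ N ^ 2 / 2 := by
    have h3 : K ^ 8 * (#W : ℝ) ≤ K ^ 9 * N := by
      calc K ^ 8 * (#W : ℝ) ≤ K ^ 8 * (K * lam ^ 2) :=
            mul_le_mul_of_nonneg_left h.cardW (by positivity)
        _ = K ^ 9 * lam ^ 2 := by ring
        _ ≤ K ^ 9 * N := mul_le_mul_of_nonneg_left hlam (by positivity)
    have h4 : 2 * K ^ 9 ≤ N := by
      calc 2 * K ^ 9 ≤ K * K ^ 9 := mul_le_mul_of_nonneg_right hK2 (by positivity)
        _ = K ^ 10 := by ring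
        _ ≤ K ^ 26 := pow_le_pow_right₀ hK1 (by norm_num)
        _ ≤ lam := hK
        _ ≤ N := hN1
    have h5 : 2 * (K ^ 9 * N) ≤ N ^ 2 := by
      calc 2 * (K ^ 9 * N) = (2 * K ^ 9) * N := by ring
        _ ≤ N * N := mul_le_mul_of_nonneg_right h4 hN0.le
        _ = N ^ 2 := by ring
    linarith
  have h6 : N ^ 2 ≤ K ^ 8 * #(JJ Q W I R) + K ^ 8 * (#W : ℝ) := by
    calc N ^ 2 ≤ _ := h1
      _ = _ := by ring
  linarith

open Classical in
/-- the number of points of `Q` in the sector `I w` of `x` -/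
noncomputable def sec (Q : Finset Pt) (I : ℕ → Set ℝ) (x : Pt) (w : ℕ) : ℕ :=
  #{z ∈ Q | sl x z ∈ I w}

open Classical in
/-- few joined pairs with a bad flag `(e.1, w)` -/
theorem card_bad {K lam : ℝ} {Q : Finset Pt} {W : Finset ℕ} {I : ℕ → Set ℝ}
    {R : ℕ → Finset Pt} (h : JView K lam Q W I R) (hQ : 0 < #Q) (B : ℝ) (hB : 0 < B) :
    B * #{e ∈ JJ Q W I R | ∃ w ∈ W, Jn I R w e.1 e.2 ∧ B * #Q < lam * sec Q I e.1 w} ≤
      K * (#Q : ℝ) ^ 2 := by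
  have hK2 := h.two
  have hK0 : 0 < K := by linarith
  have hl1 := h.one
  have hl0 : 0 < lam := by linarith
  set N : ℝ := (#Q : ℝ) with hN
  have hN0 : 0 < N := by
    rw [hN]
    exact_mod_cast hQ
  set Bd : Pt → Finset ℕ := fun x => {w ∈ W | B * N < lam * sec Q I x w} with hBd
  -- few bad windows at a point
  have h1 : ∀ x ∈ Q, B * (#(Bd x) : ℝ) ≤ lam := by
    intro x _
    have hs : ∑ w ∈ Bd x, sec Q I x w ≤ #Q := by
      unfold sec
      rw [← Finset.card_biUnion]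
      · apply Finset.card_le_card
        intro z hz
        obtain ⟨w, _, hz⟩ := Finset.mem_biUnion.1 hz
        exact (Finset.mem_filter.1 hz).1
      · intro w hw w' hw' hne
        rw [Function.onFun, Finset.disjoint_left]
        intro z hz hz'
        exact Set.disjoint_left.1 (h.disj w (Finset.mem_filter.1 hw).1 w'
          (Finset.mem_filter.1 hw').1 hne) (Finset.mem_filter.1 hz).2 (Finset.mem_filter.1 hz').2
    have hsR : ∑ w ∈ Bd x, (sec Q I x w : ℝ) ≤ N := by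
      rw [hN]
      exact_mod_cast hs
    have h2 : (#(Bd x) : ℝ) * (B * N) ≤ lam * N := by
      calc (#(Bd x) : ℝ) * (B * N) = ∑ _w ∈ Bd x, B * N := by
            rw [Finset.sum_const, nsmul_eq_mul]
        _ ≤ ∑ w ∈ Bd x, lam * (sec Q I x w : ℝ) :=
            Finset.sum_le_sum fun w hw => (Finset.mem_filter.1 hw).2.le
        _ = lam * ∑ w ∈ Bd x, (sec Q I x w : ℝ) := by rw [Finset.mul_sum]
        _ ≤ lam * N := mul_le_mul_of_nonneg_left hsR hl0.le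
    have h3 : (B * (#(Bd x) : ℝ)) * N ≤ lam * N := by
      calc (B * (#(Bd x) : ℝ)) * N = (#(Bd x) : ℝ) * (B * N) := by ring
        _ ≤ _ := h2
    exact le_of_mul_le_mul_right h3 hN0
  -- the bad pairs
  have h2 : #{e ∈ JJ Q W I R | ∃ w ∈ W, Jn I R w e.1 e.2 ∧ B * N < lam * sec Q I e.1 w} ≤
      ∑ x ∈ Q, ∑ w ∈ Bd x, #(R w) := by
    have hsub : ({e ∈ JJ Q W I R | ∃ w ∈ W, Jn I R w e.1 e.2 ∧ B * N < lam * sec Q I e.1 w} :
        Finset (Pt × Pt)) ⊆ Q.biUnion fun x => (Bd x).biUnion fun w =>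
          (R w).image fun q => (x, q) := by
      intro e he
      obtain ⟨h3, w, hw, h4, h5⟩ := Finset.mem_filter.1 he
      refine Finset.mem_biUnion.2 ⟨e.1, (mem_JJ.1 h3).1.1, Finset.mem_biUnion.2 ⟨w, ?_, ?_⟩⟩
      · exact Finset.mem_filter.2 ⟨hw, h5⟩
      · exact Finset.mem_image.2 ⟨e.2, h4.2.1, rfl⟩
    refine (Finset.card_le_card hsub).trans (Finset.card_biUnion_le.trans ?_)
    refine Finset.sum_le_sum fun x _ => Finset.card_biUnion_le.trans ?_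
    exact Finset.sum_le_sum fun w _ => Finset.card_image_le
  have h3 : (#{e ∈ JJ Q W I R | ∃ w ∈ W, Jn I R w e.1 e.2 ∧ B * N < lam * sec Q I e.1 w} : ℝ) ≤
      ∑ x ∈ Q, ∑ w ∈ Bd x, (#(R w) : ℝ) := by exact_mod_cast h2
  have h4 : ∀ x ∈ Q, B * (lam * ∑ w ∈ Bd x, (#(R w) : ℝ)) ≤ lam * (K * N) := by
    intro x hx
    calc B * (lam * ∑ w ∈ Bd x, (#(R w) : ℝ)) = B * ∑ w ∈ Bd x, lam * (#(R w) : ℝ) := by
          rw [Finset.mul_sum]
      _ ≤ B * ∑ _w ∈ Bd x, K * N := by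
          apply mul_le_mul_of_nonneg_left _ hB.le
          exact Finset.sum_le_sum fun w hw => h.cardR w (Finset.mem_filter.1 hw).1
      _ = (B * #(Bd x)) * (K * N) := by rw [Finset.sum_const, nsmul_eq_mul]; ring
      _ ≤ lam * (K * N) := mul_le_mul_of_nonneg_right (h1 x hx) (by positivity)
  have h5 : lam * (B * ∑ x ∈ Q, ∑ w ∈ Bd x, (#(R w) : ℝ)) ≤ lam * (K * N ^ 2) := by
    calc lam * (B * ∑ x ∈ Q, ∑ w ∈ Bd x, (#(R w) : ℝ))
        = ∑ x ∈ Q, B * (lam * ∑ w ∈ Bd x, (#(R w) : ℝ)) := by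
          rw [Finset.mul_sum, Finset.mul_sum]
          refine Finset.sum_congr rfl fun x _ => by ring
      _ ≤ ∑ _x ∈ Q, lam * (K * N) := Finset.sum_le_sum h4
      _ = lam * (K * N ^ 2) := by rw [Finset.sum_const, nsmul_eq_mul, ← hN]; ring
  calc B * _ ≤ B * ∑ x ∈ Q, ∑ w ∈ Bd x, (#(R w) : ℝ) := mul_le_mul_of_nonneg_left h3 hB.le
    _ ≤ K * N ^ 2 := le_of_mul_le_mul_left h5 hl0

theorem swap_mem_JJ {Q : Finset Pt} {W : Finset ℕ} {I : ℕ → Set ℝ} {R : ℕ → Finset Pt}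
    {e : Pt × Pt} (h : e ∈ JJ Q W I R) : e.swap ∈ JJ Q W I R := by
  obtain ⟨⟨h1, h2⟩, w, hw, h3⟩ := mem_JJ.1 h
  exact mem_JJ.2 ⟨⟨h2, h1⟩, w, hw, jn_symm h3⟩

open Classical in
/-- joined pairs all of whose flags are good -/
noncomputable def JG (B lam : ℝ) (Q : Finset Pt) (W : Finset ℕ) (I : ℕ → Set ℝ)
    (R : ℕ → Finset Pt) : Finset (Pt × Pt) :=
  {e ∈ JJ Q W I R | ∀ w ∈ W, Jn I R w e.1 e.2 →
    lam * sec Q I e.1 w ≤ B * #Q ∧ lam * sec Q I e.2 w ≤ B * #Q}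

theorem card_JG {K lam : ℝ} {Q : Finset Pt} {W : Finset ℕ} {I : ℕ → Set ℝ}
    {R : ℕ → Finset Pt} (h : JView K lam Q W I R) (hK : K ^ 26 ≤ lam)
    (hlam : lam ^ 2 ≤ #Q) : (#Q : ℝ) ^ 2 ≤ 4 * K ^ 8 * #(JG (K ^ 12) lam Q W I R) := by
  classical
  have hK2 := h.two
  have hK1 : 1 ≤ K := by linarith
  have hK0 : 0 < K := by linarith
  have hl1 := h.one
  have hl0 : 0 < lam := by linarith
  have hN1 : lam ≤ (#Q : ℝ) := by nlinarith
  have hQ0 : (0 : ℝ) < #Q := by linarith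
  have hQ : 0 < #Q := by exact_mod_cast hQ0
  set N : ℝ := (#Q : ℝ) with hN
  have h0 := card_JJ h hK hlam
  rw [← hN] at h0
  set B1 : Finset (Pt × Pt) := {e ∈ JJ Q W I R | ∃ w ∈ W, Jn I R w e.1 e.2 ∧
    K ^ 12 * #Q < lam * sec Q I e.1 w} with hB1
  have hb := card_bad h hQ (K ^ 12) (by positivity)
  rw [← hB1, ← hN] at hb
  have hsub : JJ Q W I R ⊆ JG (K ^ 12) lam Q W I R ∪ (B1 ∪ B1.image Prod.swap) := by
    intro e he
    rw [Finset.mem_union, Finset.mem_union]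
    by_cases hg : ∀ w ∈ W, Jn I R w e.1 e.2 →
      lam * sec Q I e.1 w ≤ K ^ 12 * #Q ∧ lam * sec Q I e.2 w ≤ K ^ 12 * #Q
    · exact Or.inl (Finset.mem_filter.2 ⟨he, hg⟩)
    · right
      push Not at hg
      obtain ⟨w, hw, hj, hg⟩ := hg
      by_cases h1 : lam * sec Q I e.1 w ≤ K ^ 12 * #Q
      · right
        refine Finset.mem_image.2 ⟨e.swap, Finset.mem_filter.2 ⟨swap_mem_JJ he, w, hw,
          jn_symm hj, hg h1⟩, Prod.swap_swap e⟩
      · left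
        exact Finset.mem_filter.2 ⟨he, w, hw, hj, not_le.1 h1⟩
  have hc : #(JJ Q W I R) ≤ #(JG (K ^ 12) lam Q W I R) + 2 * #B1 := by
    calc #(JJ Q W I R) ≤ _ := Finset.card_le_card hsub
      _ ≤ #(JG (K ^ 12) lam Q W I R) + #(B1 ∪ B1.image Prod.swap) := Finset.card_union_le _ _
      _ ≤ #(JG (K ^ 12) lam Q W I R) + (#B1 + #(B1.image Prod.swap)) :=
          Nat.add_le_add_left (Finset.card_union_le _ _) _
      _ ≤ #(JG (K ^ 12) lam Q W I R) + (#B1 + #B1) :=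
          Nat.add_le_add_left (Nat.add_le_add_left Finset.card_image_le _) _
      _ = _ := by ring
  have hcR : (#(JJ Q W I R) : ℝ) ≤ #(JG (K ^ 12) lam Q W I R) + 2 * #B1 := by exact_mod_cast hc
  have h1 : 2 * K ^ 8 * (2 * (#B1 : ℝ)) ≤ N ^ 2 / 2 := by
    have h2 : K ^ 3 * (K ^ 9 * (#B1 : ℝ)) ≤ K * N ^ 2 := by
      calc K ^ 3 * (K ^ 9 * (#B1 : ℝ)) = K ^ 12 * #B1 := by ring
        _ ≤ K * N ^ 2 := hb
    have h3 : (8 : ℝ) ≤ K ^ 3 := by
      calc (8 : ℝ) = 2 ^ 3 := by norm_num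
        _ ≤ K ^ 3 := pow_le_pow_left₀ (by norm_num) hK2 3
    have h4 : 8 * (K ^ 9 * (#B1 : ℝ)) ≤ K * N ^ 2 :=
      le_trans (mul_le_mul_of_nonneg_right h3 (by positivity)) h2
    have h5 : K * (8 * (K ^ 8 * (#B1 : ℝ))) ≤ K * N ^ 2 := by
      calc K * (8 * (K ^ 8 * (#B1 : ℝ))) = 8 * (K ^ 9 * (#B1 : ℝ)) := by ring
        _ ≤ _ := h4
    have h6 : 8 * (K ^ 8 * (#B1 : ℝ)) ≤ N ^ 2 := le_of_mul_le_mul_left h5 hK0
    linarith
  have h2 : N ^ 2 ≤ 2 * K ^ 8 * #(JG (K ^ 12) lam Q W I R) + 2 * K ^ 8 * (2 * (#B1 : ℝ)) := by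
    calc N ^ 2 ≤ 2 * K ^ 8 * #(JJ Q W I R) := h0
      _ ≤ 2 * K ^ 8 * (#(JG (K ^ 12) lam Q W I R) + 2 * #B1) :=
          mul_le_mul_of_nonneg_left hcR (by positivity)
      _ = _ := by ring
  linarith

/-- majority of a dichotomy -/
theorem exists_half {α : Type*} (S : Finset α) (p : α → Prop) :
    ∃ S' ⊆ S, #S ≤ 2 * #S' ∧ ((∀ e ∈ S', p e) ∨ (∀ e ∈ S', ¬ p e)) := by
  classical
  set A : Finset α := {e ∈ S | p e} with hA
  set B : Finset α := {e ∈ S | ¬ p e} with hB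
  have h : #A + #B = #S := Finset.card_filter_add_card_filter_not (s := S) p
  rcases le_total #A #B with h1 | h1
  · exact ⟨B, Finset.filter_subset _ S, by omega,
      Or.inr fun e he => (Finset.mem_filter.1 he).2⟩
  · exact ⟨A, Finset.filter_subset _ S, by omega,
      Or.inl fun e he => (Finset.mem_filter.1 he).2⟩

/-- **[CENTRE], cherry form** -/
theorem stCher : StCher := by
  classical
  refine ⟨26, ?_⟩
  intro K lam Q W I R h hK hlam
  have hK2 := h.two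
  have hK1 : 1 ≤ K := by linarith
  have hK0 : 0 < K := by linarith
  have hl1 := h.one
  have hl0 : 0 < lam := by linarith
  have hN1 : lam ≤ (#Q : ℝ) := by nlinarith
  have hQ0 : (0 : ℝ) < #Q := by linarith
  set J := JG (K ^ 12) lam Q W I R with hJdef
  have hJc := card_JG h hK hlam
  rw [← hJdef] at hJc
  set N : ℝ := (#Q : ℝ) with hN
  have hJne : J.Nonempty := by
    rw [Finset.nonempty_iff_ne_empty]
    intro h0
    rw [h0, Finset.card_empty, Nat.cast_zero, mul_zero] at hJc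
    have : 0 < N ^ 2 := by positivity
    linarith
  have hJm : ∀ e ∈ J, e.1 ∈ Q ∧ e.2 ∈ Q ∧ ∃ w ∈ W, Jn I R w e.1 e.2 := by
    intro e he
    obtain ⟨⟨h1, h2⟩, h3⟩ := mem_JJ.1 (Finset.mem_filter.1 he).1
    exact ⟨h1, h2, h3⟩
  obtain ⟨c, hc, w0, hw0, m0, hm0, Pr0, hPrJ, hcard, hPr⟩ := cherry Q W I R ⌊K * lam⌋₊ J hJne
    h.conn h.disj hJm (fun c hc => Nat.le_floor (h.touch c hc))
  -- remove the pairs of the window `w0`
  set Pr1 : Finset (Pt × Pt) := {e ∈ Pr0 | ¬ Jn I R w0 e.1 e.2} with hPr1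
  have hrem : #Pr0 ≤ #Pr1 + #(R w0) * #(R w0) := by
    set Pc : Finset (Pt × Pt) := {e ∈ Pr0 | Jn I R w0 e.1 e.2} with hPc
    have h1 : #Pc + #Pr1 = #Pr0 :=
      Finset.card_filter_add_card_filter_not (s := Pr0) (fun e => Jn I R w0 e.1 e.2)
    have h2 : #Pc ≤ #(R w0) * #(R w0) := by
      rw [← Finset.card_product]
      apply Finset.card_le_card
      intro e he
      have := (Finset.mem_filter.1 he).2
      exact Finset.mem_product.2 ⟨this.1, this.2.1⟩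
    omega
  obtain ⟨Pr2, hsub2, hcard2, hside⟩ := exists_half Pr1 (fun e => c.1 < e.1.1)
  obtain ⟨Pr3, hsub3, hcard3, habove⟩ := exists_half Pr2 (fun e => ht m0 c < ht m0 e.2)
  have hin0 : ∀ e ∈ Pr3, e ∈ Pr0 := fun e he =>
    (Finset.mem_filter.1 (hsub2 (hsub3 he))).1
  have hnot : ∀ e ∈ Pr3, ¬ Jn I R w0 e.1 e.2 := fun e he =>
    (Finset.mem_filter.1 (hsub2 (hsub3 he))).2
  -- the label
  set Wd : Pt × Pt → ℕ := fun e => if h : ∃ w ∈ W, Jn I R w e.1 e.2 then h.choose else 0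
    with hWd
  have hWds : ∀ e ∈ Pr3, Wd e ∈ W ∧ Jn I R (Wd e) e.1 e.2 := by
    intro e he
    have h1 := (hJm e (hPrJ (hin0 e he))).2.2
    have : Wd e = h1.choose := by rw [hWd]; simp only [dif_pos h1]
    rw [this]
    exact h1.choose_spec
  have hgood : ∀ e ∈ J, ∀ w ∈ W, Jn I R w e.1 e.2 →
      lam * sec Q I e.1 w ≤ K ^ 26 * #Q ∧ lam * sec Q I e.2 w ≤ K ^ 26 * #Q := by
    intro e he w hw hj
    have hKK : K ^ 12 * (#Q : ℝ) ≤ K ^ 26 * #Q :=
      mul_le_mul_of_nonneg_right (pow_le_pow_right₀ hK1 (by norm_num)) (by positivity)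
    obtain ⟨h1, h2⟩ := (Finset.mem_filter.1 he).2 w hw hj
    exact ⟨h1.trans hKK, h2.trans hKK⟩
  -- arithmetic
  have hcardR : (#J : ℝ) ^ 2 ≤ 4 * (K * lam) * N ^ 2 * #Pr0 := by
    have h1 : (#J : ℝ) ^ 2 ≤ 4 * (⌊K * lam⌋₊ : ℝ) * N ^ 2 * #Pr0 := by
      rw [hN]
      exact_mod_cast hcard
    have h2 : (⌊K * lam⌋₊ : ℝ) ≤ K * lam := Nat.floor_le (by positivity)
    refine h1.trans ?_
    gcongr
  have ha : N ^ 2 ≤ 64 * K ^ 17 * lam * #Pr0 := by
    have h1 : N ^ 2 * N ^ 2 ≤ (64 * K ^ 17 * lam * #Pr0) * N ^ 2 := by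
      calc N ^ 2 * N ^ 2 ≤ (4 * K ^ 8 * #J) * (4 * K ^ 8 * #J) :=
            mul_le_mul hJc hJc (by positivity) (by positivity)
        _ = 16 * K ^ 16 * (#J : ℝ) ^ 2 := by ring
        _ ≤ 16 * K ^ 16 * (4 * (K * lam) * N ^ 2 * #Pr0) :=
            mul_le_mul_of_nonneg_left hcardR (by positivity)
        _ = _ := by ring
    exact le_of_mul_le_mul_right h1 (by positivity)
  have hb : (#Pr0 : ℝ) ≤ 4 * #Pr3 + (#(R w0) : ℝ) * #(R w0) := by
    have : #Pr0 ≤ 4 * #Pr3 + #(R w0) * #(R w0) := by omega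
    exact_mod_cast this
  have hr : lam ^ 2 * ((#(R w0) : ℝ) * #(R w0)) ≤ K ^ 2 * N ^ 2 := by
    have h1 := h.cardR w0 hw0
    calc lam ^ 2 * ((#(R w0) : ℝ) * #(R w0)) = (lam * #(R w0)) * (lam * #(R w0)) := by ring
      _ ≤ (K * N) * (K * N) := mul_le_mul h1 h1 (by positivity) (by positivity)
      _ = K ^ 2 * N ^ 2 := by ring
  have hlam128 : 128 * K ^ 19 ≤ lam := by
    have h1 : (128 : ℝ) ≤ K ^ 7 := by
      calc (128 : ℝ) = 2 ^ 7 := by norm_num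
        _ ≤ K ^ 7 := pow_le_pow_left₀ (by norm_num) hK2 7
    calc 128 * K ^ 19 ≤ K ^ 7 * K ^ 19 := mul_le_mul_of_nonneg_right h1 (by positivity)
      _ = K ^ 26 := by ring
      _ ≤ lam := hK
  have hd : 64 * K ^ 17 * lam * ((#(R w0) : ℝ) * #(R w0)) ≤ N ^ 2 / 2 := by
    have h1 : lam * (64 * K ^ 17 * lam * ((#(R w0) : ℝ) * #(R w0))) ≤ lam * (N ^ 2 / 2) := by
      calc lam * (64 * K ^ 17 * lam * ((#(R w0) : ℝ) * #(R w0)))
          = 64 * K ^ 17 * (lam ^ 2 * ((#(R w0) : ℝ) * #(R w0))) := by ring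
        _ ≤ 64 * K ^ 17 * (K ^ 2 * N ^ 2) := mul_le_mul_of_nonneg_left hr (by positivity)
        _ = (128 * K ^ 19) * (N ^ 2 / 2) := by ring
        _ ≤ lam * (N ^ 2 / 2) := mul_le_mul_of_nonneg_right hlam128 (by positivity)
    exact le_of_mul_le_mul_left h1 hl0
  have hfin : N ^ 2 ≤ 512 * K ^ 17 * lam * #Pr3 := by
    have h1 : N ^ 2 ≤ 64 * K ^ 17 * lam * (4 * #Pr3 + (#(R w0) : ℝ) * #(R w0)) :=
      ha.trans (mul_le_mul_of_nonneg_left hb (by positivity))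
    have h2 : 64 * K ^ 17 * lam * (4 * #Pr3 + (#(R w0) : ℝ) * #(R w0)) =
      256 * K ^ 17 * lam * #Pr3 + 64 * K ^ 17 * lam * ((#(R w0) : ℝ) * #(R w0)) := by ring
    rw [h2] at h1
    linarith
  have hfin2 : N ^ 2 ≤ K ^ 26 * lam * #Pr3 := by
    have h1 : (512 : ℝ) ≤ K ^ 9 := by
      calc (512 : ℝ) = 2 ^ 9 := by norm_num
        _ ≤ K ^ 9 := pow_le_pow_left₀ (by norm_num) hK2 9
    calc N ^ 2 ≤ 512 * K ^ 17 * lam * #Pr3 := hfin
      _ ≤ K ^ 9 * K ^ 17 * lam * #Pr3 := by gcongr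
      _ = K ^ 26 * lam * #Pr3 := by ring
  -- some pair, for the centre
  have hPr3ne : Pr3.Nonempty := by
    rw [Finset.nonempty_iff_ne_empty]
    intro h0
    rw [h0, Finset.card_empty, Nat.cast_zero, mul_zero] at hfin2
    have : 0 < N ^ 2 := by positivity
    linarith
  obtain ⟨e1, he1⟩ := hPr3ne
  refine ⟨c, w0, m0, Pr3, Wd, ?_⟩
  refine
    { w0W := hw0
      cQ := hc
      m0I := hm0
      card := hfin2
      mem1 := fun e he => (hJm e (hPrJ (hin0 e he))).1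
      mem2 := fun e he => (hJm e (hPrJ (hin0 e he))).2.1
      jc := fun e he => jn_symm (hPr e (hin0 e he)).2.1
      wdW := fun e he => (hWds e he).1
      wd0 := fun e he h0 => hnot e he (h0 ▸ (hWds e he).2)
      jq := fun e he => (hWds e he).2
      ex := fun e he => (hPr e (hin0 e he)).2.2 _ (hWds e he).1 (hWds e he).2
      secc := (hgood _ (hPr e1 (hin0 e1 he1)).1 w0 hw0 (hPr e1 (hin0 e1 he1)).2.1).2
      seca0 := fun e he => (hgood _ (hPr e (hin0 e he)).1 w0 hw0 (hPr e (hin0 e he)).2.1).1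
      seca := fun e he => (hgood _ (hPrJ (hin0 e he)) _ (hWds e he).1 (hWds e he).2).1
      secq := fun e he => (hgood _ (hPrJ (hin0 e he)) _ (hWds e he).1 (hWds e he).2).2
      side := ?_
      above := ?_ }
  · rcases hside with h1 | h1
    · exact Or.inl fun e he => h1 e (hsub3 he)
    · refine Or.inr fun e he => lt_of_le_of_ne (not_lt.1 (h1 e (hsub3 he))) ?_
      exact (hPr e (hin0 e he)).2.1.2.2.1
  · rcases habove with h1 | h1
    · exact Or.inl h1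
    · refine Or.inr fun e he => lt_of_le_of_ne (not_lt.1 (h1 e he)) ?_
      intro heq
      -- otherwise the slope of `a' q` is `m0`
      have hj := (hWds e he).2
      have hne : e.2.1 - e.1.1 ≠ 0 := sub_ne_zero.2 (Ne.symm hj.2.2.1)
      have hs : sl (prj m0 c e.1) e.2 = m0 := by
        unfold sl prj
        unfold ht at heq
        rw [div_eq_iff hne]
        simp only
        linarith
      have h2 := (hPr e (hin0 e he)).2.2 _ (hWds e he).1 hj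
      rw [hs] at h2
      have h3 : Wd e ≠ w0 := fun h0 => hnot e he (h0 ▸ hj)
      exact Set.disjoint_left.1 (h.disj _ (hWds e he).1 w0 hw0 h3) h2 hm0

end Vale.Agent.P065.UB.H415
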