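import Vale.Agent.P065.UB.Defs

/-!
# P065, upper bound, block MACH3 (helper415): from ONERES to the normalised box

Points `B : γ` with coordinates `X B`, `Y B`; `nrm S X Y B = (X B / S, Y B / S)`; resolution
`δ / S`. All fields `box`, `δ1`, `cell`, `covX`, `covY`, `near`, `absA` of `Pre`.
-/

set_option autoImplicit false

namespace Vale.Agent.P065.UB.H415

open Finset

/-- normalised coordinates -/
noncomputable def nrm {γ : Type*} (S : ℝ) (X Y : γ → ℝ) (B : γ) : ℝ × ℝ := (X B / S, Y B / S)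

/-- the scale of the box -/
theorem exists_scale {γ : Type*} (G : Finset γ) (X Y : γ → ℝ) (δ : ℝ) (hδ : 0 < δ) :
    ∃ S : ℝ, 0 < S ∧ δ ≤ S ∧ ∀ B ∈ G, |X B| ≤ S ∧ |Y B| ≤ S := by
  refine ⟨δ + ∑ B ∈ G, (|X B| + |Y B|), ?_, ?_, ?_⟩
  · have : 0 ≤ ∑ B ∈ G, (|X B| + |Y B|) := Finset.sum_nonneg fun B _ => by positivity
    linarith
  · have : 0 ≤ ∑ B ∈ G, (|X B| + |Y B|) := Finset.sum_nonneg fun B _ => by positivity
    linarith
  · intro B hB
    have h := Finset.single_le_sum (f := fun B => |X B| + |Y B|)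
      (fun B _ => by positivity) hB
    have h1 := abs_nonneg (X B)
    have h2 := abs_nonneg (Y B)
    constructor <;> linarith

/-- the smallest possible scale: `max δ (max |X|, |Y|)`, attained up to the maximum -/
theorem exists_scale_max {γ : Type*} (G : Finset γ) (X Y : γ → ℝ) (δ : ℝ) (hδ : 0 < δ) :
    ∃ S : ℝ, 0 < S ∧ δ ≤ S ∧ (∀ B ∈ G, |X B| ≤ S ∧ |Y B| ≤ S) ∧
      (S = δ ∨ ∃ B ∈ G, S = |X B| ∨ S = |Y B|) := by
  classical
  set F : Finset ℝ := insert δ ((G.image fun B => |X B|) ∪ (G.image fun B => |Y B|)) with hF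
  have hne : F.Nonempty := ⟨δ, Finset.mem_insert_self _ _⟩
  have hmax := F.max'_mem hne
  have hle : ∀ x ∈ F, x ≤ F.max' hne := fun x hx => F.le_max' x hx
  refine ⟨F.max' hne, lt_of_lt_of_le hδ (hle δ (Finset.mem_insert_self _ _)),
    hle δ (Finset.mem_insert_self _ _), ?_, ?_⟩
  · intro B hB
    constructor
    · exact hle _ (Finset.mem_insert_of_mem (Finset.mem_union_left _
        (Finset.mem_image.2 ⟨B, hB, rfl⟩)))
    · exact hle _ (Finset.mem_insert_of_mem (Finset.mem_union_right _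
        (Finset.mem_image.2 ⟨B, hB, rfl⟩)))
  · rcases Finset.mem_insert.1 hmax with h | h
    · exact Or.inl h
    · rcases Finset.mem_union.1 h with h | h
      · obtain ⟨B, hB, h⟩ := Finset.mem_image.1 h
        exact Or.inr ⟨B, hB, Or.inl h.symm⟩
      · obtain ⟨B, hB, h⟩ := Finset.mem_image.1 h
        exact Or.inr ⟨B, hB, Or.inr h.symm⟩

section
variable {γ : Type*} {S δ : ℝ} {X Y : γ → ℝ}

theorem div_div_scale (hS : 0 < S) (x : ℝ) : x / S / (δ / S) = x / δ := by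
  rw [div_div_div_cancel_right₀ hS.ne']

/-- `box` -/
theorem nrm_box (hS : 0 < S) {B : γ} (h : |X B| ≤ S ∧ |Y B| ≤ S) :
    |(nrm S X Y B).1| ≤ 1 ∧ |(nrm S X Y B).2| ≤ 1 := by
  unfold nrm
  simp only [abs_div, abs_of_pos hS]
  exact ⟨(div_le_one hS).2 h.1, (div_le_one hS).2 h.2⟩

theorem nrm_abs1 (hS : 0 < S) (B : γ) (x : ℝ) :
    |(nrm S X Y B).1 - x| = |X B - S * x| / S := by
  unfold nrm
  simp only
  rw [show X B / S - x = (X B - S * x) / S by field_simp, abs_div, abs_of_pos hS]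

theorem nrm_abs2 (hS : 0 < S) (B : γ) (y : ℝ) :
    |(nrm S X Y B).2 - y| = |Y B - S * y| / S := by
  unfold nrm
  simp only
  rw [show Y B / S - y = (Y B - S * y) / S by field_simp, abs_div, abs_of_pos hS]

theorem nrm_lin (hS : 0 < S) (B : γ) (al z : ℝ) :
    |(nrm S X Y B).1 + al * (nrm S X Y B).2 - z| = |X B + al * Y B - S * z| / S := by
  unfold nrm
  simp only
  rw [show X B / S + al * (Y B / S) - z = (X B + al * Y B - S * z) / S by field_simp, abs_div,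
    abs_of_pos hS]

open Classical in
/-- `covX` -/
theorem nrm_covX (hS : 0 < S) (G : Finset γ) :
    #((G.image (nrm S X Y)).image fun q => ⌊q.1 / (δ / S)⌋) ≤ #(G.image fun B => ⌊X B / δ⌋) := by
  apply Finset.card_le_card
  intro e he
  obtain ⟨q, hq, rfl⟩ := Finset.mem_image.1 he
  obtain ⟨B, hB, rfl⟩ := Finset.mem_image.1 hq
  refine Finset.mem_image.2 ⟨B, hB, ?_⟩
  unfold nrm
  simp only
  rw [div_div_scale hS]

open Classical in
/-- `covY` -/
theorem nrm_covY (hS : 0 < S) (G : Finset γ) :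
    #((G.image (nrm S X Y)).image fun q => ⌊q.2 / (δ / S)⌋) ≤ #(G.image fun B => ⌊Y B / δ⌋) := by
  apply Finset.card_le_card
  intro e he
  obtain ⟨q, hq, rfl⟩ := Finset.mem_image.1 he
  obtain ⟨B, hB, rfl⟩ := Finset.mem_image.1 hq
  refine Finset.mem_image.2 ⟨B, hB, ?_⟩
  unfold nrm
  simp only
  rw [div_div_scale hS]

open Classical in
/-- `cell` -/
theorem nrm_cell (hS : 0 < S) (G : Finset γ) (x y : ℝ) :
    #{q ∈ G.image (nrm S X Y) | |q.1 - x| ≤ δ / S ∧ |q.2 - y| ≤ δ / S} ≤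
      #{B ∈ G | |X B - S * x| ≤ δ ∧ |Y B - S * y| ≤ δ} := by
  have hsub : ({q ∈ G.image (nrm S X Y) | |q.1 - x| ≤ δ / S ∧ |q.2 - y| ≤ δ / S} :
      Finset (ℝ × ℝ)) ⊆ ({B ∈ G | |X B - S * x| ≤ δ ∧ |Y B - S * y| ≤ δ}).image (nrm S X Y) := by
    intro q hq
    obtain ⟨h1, h2, h3⟩ := Finset.mem_filter.1 hq
    obtain ⟨B, hB, rfl⟩ := Finset.mem_image.1 h1
    refine Finset.mem_image.2 ⟨B, Finset.mem_filter.2 ⟨hB, ?_, ?_⟩, rfl⟩
    · rw [nrm_abs1 hS] at h2
      exact (div_le_div_iff_of_pos_right hS).1 h2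
    · rw [nrm_abs2 hS] at h3
      exact (div_le_div_iff_of_pos_right hS).1 h3
  exact (Finset.card_le_card hsub).trans Finset.card_image_le

/-- `near`: `Z = X + al Y` is within `δ` of `z` -/
theorem nrm_near (hS : 0 < S) {B : γ} {al z : ℝ} (h : |X B + al * Y B - z| ≤ δ) :
    |(nrm S X Y B).1 + al * (nrm S X Y B).2 - z / S| ≤ δ / S := by
  rw [nrm_lin hS, mul_div_cancel₀ _ hS.ne']
  exact (div_le_div_iff_of_pos_right hS).2 h

/-- boxes of direction `al` -/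
theorem nrm_box_iff (hS : 0 < S) {B : γ} (al t r s₀ h₀ : ℝ) :
    (|(nrm S X Y B).1 + al * (nrm S X Y B).2 - s₀| ≤ t ∧ |(nrm S X Y B).2 - h₀| ≤ r) ↔
      (|X B + al * Y B - S * s₀| ≤ S * t ∧ |Y B - S * h₀| ≤ S * r) := by
  rw [nrm_lin hS, nrm_abs2 hS, div_le_iff₀ hS, div_le_iff₀ hS, mul_comm t S, mul_comm r S]

theorem nrm_injOn (hS : 0 < S) {G : Finset γ}
    (h : ∀ B ∈ G, ∀ B' ∈ G, X B = X B' → Y B = Y B' → B = B') :
    Set.InjOn (nrm S X Y) (G : Set γ) := by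
  intro B hB B' hB' he
  unfold nrm at he
  have h1 := congrArg Prod.fst he
  have h2 := congrArg Prod.snd he
  simp only at h1 h2
  exact h B hB B' hB' ((div_left_inj' hS.ne').1 h1) ((div_left_inj' hS.ne').1 h2)

end

/-- `absA` -/
theorem absA_of {K al : ℝ} (hK : 4 ≤ K) (h : 1 / 4 ≤ |al| ∧ |al| ≤ 4) :
    1 ≤ K * |al| ∧ |al| ≤ K := by
  refine ⟨?_, h.2.trans hK⟩
  calc (1 : ℝ) = 4 * (1 / 4) := by norm_num
    _ ≤ K * |al| := mul_le_mul hK h.1 (by norm_num) (by linarith)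

end Vale.Agent.P065.UB.H415
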