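import Vale.Agent.P065.UB.Mach.Defs
import Vale.Agent.P065.UB.H415.Mach3
import Vale.Agent.P065.UB.H616.StarF
import Vale.Agent.P065.H537.PreDefs

/-!
# P065, upper bound, block MACH3 (helper415): `MC.Mach` ⇒ `H537.PreC`

`preC_of_mach` : the output of the machine, normalised to the unit box, satisfies 537's `PreC`;
`dim_of_mach` : the dimension condition; `machKill_of : StPreKill → StMachKill`.
-/

set_option autoImplicit false

namespace Vale.Agent.P065.UB.H415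

open Finset Vale.Agent.P065.UB Vale.Agent.P065.H183 Vale.Agent.P065.UB.H616
open Vale.Agent.P065.UB.MC

/-- `mem_filter` for every decidability instance -/
theorem mem_filter' {α : Type*} {p : α → Prop} {inst : DecidablePred p} {s : Finset α} {a : α} :
    a ∈ @Finset.filter α p inst s ↔ a ∈ s ∧ p a := Finset.mem_filter

/-- the normalised chart -/
noncomputable def np (S m0 : ℝ) (c o1 o2 o3 : Pt) (q : Pt) : ℝ × ℝ :=
  (chF m0 c (1 / S) (-(chU c o1 / S)) 0 q,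
    chF m0 c (cc o1 o2 o3 / S) (-(cc o1 o2 o3 * chU c o2 / S)) 0 q)

theorem np_eq (S m0 : ℝ) (c o1 o2 o3 : Pt) :
    np S m0 c o1 o2 o3 = nrm S (fX m0 c o1) (fY m0 c o1 o2 o3) := by
  funext q
  unfold np nrm chF fX fY cf
  refine Prod.ext ?_ ?_
  · simp only; ring
  · simp only; ring

theorem cc_inj {o1 o2 a b : Pt} (h12 : o1.1 ≠ o2.1) (ha : a.1 ≠ o2.1) (hb : b.1 ≠ o2.1)
    (h : cc o1 o2 a = cc o1 o2 b) : a.1 = b.1 := by
  have e1 : o2.1 - a.1 ≠ 0 := sub_ne_zero.2 ha.symm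
  have e2 : o2.1 - b.1 ≠ 0 := sub_ne_zero.2 hb.symm
  have e3 : o2.1 - o1.1 ≠ 0 := sub_ne_zero.2 h12.symm
  unfold cc at h
  rw [div_eq_div_iff e1 e2] at h
  have : (o2.1 - o1.1) * (a.1 - b.1) = 0 := by linear_combination h
  exact sub_eq_zero.1 ((mul_eq_zero.1 this).resolve_left e3)

theorem cc_ne {o1 o2 a : Pt} (h1 : a.1 ≠ o1.1) (h2 : a.1 ≠ o2.1) : cc o1 o2 a ≠ 0 := by
  unfold cc
  exact div_ne_zero (sub_ne_zero.2 h1) (sub_ne_zero.2 h2.symm)

section
variable {K K' lam : ℝ} {Q : Finset Pt} {W : Finset ℕ} {I : ℕ → Set ℝ} {R : ℕ → Finset Pt}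
  {c : Pt} {w0 : ℕ} {m0 : ℝ} {o1 o2 o3 : Pt} {F : Finset (Pt × Pt)} {Wd : Pt × Pt → ℕ} {δ : ℝ}

open Classical in
/-- multipliers are injective on the used apexes -/
theorem mu_injOn (hV : JView K' lam Q W I R) (h : Mach K lam Q W I R c w0 m0 o1 o2 o3 F Wd δ) :
    Set.InjOn (mu o1 o2 o3) (F.image Prod.fst : Finset Pt) := by
  intro a ha b hb hab
  rw [mem_coe, mem_image] at ha hb
  obtain ⟨e, he, rfl⟩ := ha
  obtain ⟨e', he', rfl⟩ := hb
  have hc3 : cc o1 o2 o3 ≠ 0 := cc_ne (h.x13 hV he).symm (h.x23 hV he).symm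
  unfold mu at hab
  have h1 : cc o1 o2 e.1 = cc o1 o2 e'.1 := (div_left_inj' hc3).1 hab
  exact hV.xinj _ (h.fl e he).aQ _ (h.fl e' he').aQ
    (cc_inj (h.x12 hV he) (h.xa2 hV he) (h.xa2 hV he') h1)

/-- the side of the used points -/
theorem exists_side (h : Mach K lam Q W I R c w0 m0 o1 o2 o3 F Wd δ) :
    ∃ σ : ℝ, (σ = 1 ∨ σ = -1) ∧ ∀ e ∈ F, 0 < σ * chV m0 c e.2 := by
  unfold chV
  rcases h.above with h1 | h1
  · exact ⟨1, Or.inl rfl, fun e he => by rw [one_mul]; exact sub_pos.2 (h1 e he)⟩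
  · exact ⟨-1, Or.inr rfl, fun e he => by
      rw [neg_one_mul]; exact neg_pos.2 (sub_neg.2 (h1 e he))⟩

theorem det_ne (hV : JView K' lam Q W I R) (h : Mach K lam Q W I R c w0 m0 o1 o2 o3 F Wd δ)
    {e : Pt × Pt} (he : e ∈ F) {S : ℝ} (hS : 0 < S) :
    1 / S * (-(cc o1 o2 o3 * chU c o2 / S)) - cc o1 o2 o3 / S * (-(chU c o1 / S)) ≠ 0 := by
  have hc3 : cc o1 o2 o3 ≠ 0 := cc_ne (h.x13 hV he).symm (h.x23 hV he).symm
  have e1 : 1 / S * (-(cc o1 o2 o3 * chU c o2 / S)) - cc o1 o2 o3 / S * (-(chU c o1 / S))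
      = cc o1 o2 o3 * (o1.1 - o2.1) / S ^ 2 := by
    unfold chU
    field_simp
    ring
  rw [e1]
  exact div_ne_zero (mul_ne_zero hc3 (sub_ne_zero.2 (h.x12 hV he))) (pow_ne_zero _ hS.ne')

/-- the chart is injective on one side -/
theorem np_inj (hV : JView K' lam Q W I R) (h : Mach K lam Q W I R c w0 m0 o1 o2 o3 F Wd δ)
    {e : Pt × Pt} (he : e ∈ F) {S σ : ℝ} (hS : 0 < S) {v w : Pt}
    (hv : 0 < σ * chV m0 c v) (hw : 0 < σ * chV m0 c w)
    (hvw : np S m0 c o1 o2 o3 v = np S m0 c o1 o2 o3 w) : v = w :=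
  chF_inj (det_ne hV h he hS) (ne_of_side hv) (ne_of_side hw)
    (congrArg Prod.fst hvw) (congrArg Prod.snd hvw)

/-- the windows touched by a point -/
theorem touch_le (hV : JView K' lam Q W I R) (hK' : K' ≤ K) {x : Pt} (hx : x ∈ Q) (T : Finset ℕ)
    (hT : ∀ w ∈ T, w ∈ W ∧ x ∈ R w) : (#T : ℝ) ≤ K * lam := by
  classical
  have h1 : T ⊆ ({w ∈ W | x ∈ R w} : Finset ℕ) := fun w hw => mem_filter.2 (hT w hw)
  have h2 : (#T : ℝ) ≤ #{w ∈ W | x ∈ R w} := by exact_mod_cast card_le_card h1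
  refine (h2.trans (le_of_eq ?_)).trans ((hV.touch x hx).trans ?_)
  · congr!
  · exact mul_le_mul_of_nonneg_right hK' (by linarith [hV.one])

end

/-- floors: a set of reals covered by `L` classes of diameter `≤ δ` has at most `2 L` floors -/
theorem floors_le {γ : Type*} [DecidableEq γ] (U : Finset γ) (X : γ → ℝ) (lab : γ → ℕ) {δ : ℝ}
    (hδ : 0 < δ) (h : ∀ q ∈ U, ∀ q' ∈ U, lab q = lab q' → |X q - X q'| ≤ δ) :
    #(U.image fun q => ⌊X q / δ⌋) ≤ 2 * #(U.image lab) := by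
  classical
  have h1 : U.image (fun q => ⌊X q / δ⌋) ⊆ (U.image lab).biUnion fun w =>
      ({q ∈ U | lab q = w}).image fun q => ⌊X q / δ⌋ := by
    intro z hz
    obtain ⟨q, hq, rfl⟩ := mem_image.1 hz
    refine mem_biUnion.2 ⟨lab q, mem_image_of_mem _ hq, ?_⟩
    exact mem_image.2 ⟨q, mem_filter.2 ⟨hq, rfl⟩, rfl⟩
  refine (card_le_card h1).trans ?_
  refine (card_biUnion_le_card_mul _ _ 2 ?_).trans (by rw [mul_comm])
  intro w _
  by_cases hne : (({q ∈ U | lab q = w}).image fun q => ⌊X q / δ⌋).Nonempty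
  · set T := ({q ∈ U | lab q = w}).image fun q => ⌊X q / δ⌋ with hT
    have hmin := T.min'_mem hne
    obtain ⟨q0, hq0, hm⟩ := mem_image.1 hmin
    have hsub : T ⊆ {T.min' hne, T.min' hne + 1} := by
      intro z hz
      have hz1 : T.min' hne ≤ z := T.min'_le z hz
      obtain ⟨q, hq, rfl⟩ := mem_image.1 hz
      have hab := h q (mem_filter.1 hq).1 q0 (mem_filter.1 hq0).1
        ((mem_filter.1 hq).2.trans (mem_filter.1 hq0).2.symm)
      have h2 : X q / δ ≤ X q0 / δ + 1 := by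
        rw [div_add_one hδ.ne']
        exact div_le_div_of_nonneg_right (by linarith [(abs_le.1 hab).2]) hδ.le
      have h3 : ⌊X q / δ⌋ ≤ ⌊X q0 / δ⌋ + 1 := by
        rw [← Int.floor_add_one]
        exact Int.floor_le_floor h2
      rw [hm] at h3
      rw [mem_insert, mem_singleton]
      omega
    exact (card_le_card hsub).trans card_le_two
  · rw [not_nonempty_iff_eq_empty.1 hne]
    simp


section main

variable {K K' lam : ℝ} {Q : Finset Pt} {W : Finset ℕ} {I : ℕ → Set ℝ} {R : ℕ → Finset Pt}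
  {c : Pt} {w0 : ℕ} {m0 : ℝ} {o1 o2 o3 : Pt} {F : Finset (Pt × Pt)} {Wd : Pt × Pt → ℕ} {δ : ℝ}

open Classical in
/-- **[MACH3]**: a `Mach`, normalised to the unit box, satisfies `PreC` -/
theorem preC_of_mach (hV : JView K' lam Q W I R) (hK' : K' ≤ K)
    (h : Mach K lam Q W I R c w0 m0 o1 o2 o3 F Wd δ) (hQ : lam ^ 6 ≤ #Q) :
    ∃ (S : ℝ) (Q0 : Finset (ℝ × ℝ)) (A0 : Finset ℝ) (E : Finset (ℝ × (ℝ × ℝ)))
      (om : ℝ → ℝ × ℝ → ℕ) (R' : ℕ → Finset (ℝ × ℝ)) (zc : ℝ → ℕ → ℝ), 0 < S ∧ δ ≤ S ∧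
      H537.PreC (216 * K) lam (#Q / lam ^ 2) (δ / S) Q0
        ((F.image Prod.snd).image (nrm S (fX m0 c o1) (fY m0 c o1 o2 o3))) A0 E om W R' zc := by
  have hK2 : 2 ≤ K := hV.two.trans hK'
  have hK0 : 0 < K := by linarith
  have hlam : 1 ≤ lam := hV.one
  have hlam0 : 0 < lam := by linarith
  have hq0 : (0 : ℝ) < #Q := lt_of_lt_of_le (by positivity) hQ
  have hm0 : (0 : ℝ) < #Q / lam ^ 2 := by positivity
  have hKm : K ≤ 216 * K := by linarith
  have hFne : F.Nonempty := by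
    rw [nonempty_iff_ne_empty]
    rintro rfl
    have := h.card
    rw [card_empty, Nat.cast_zero, mul_zero] at this
    have h2 : (0 : ℝ) < (#Q : ℝ) ^ 2 := by positivity
    linarith
  obtain ⟨e0, he0⟩ := hFne
  obtain ⟨σ, hσ, hside⟩ := exists_side h
  obtain ⟨S, hS, hδS, hbox⟩ := exists_scale (F.image Prod.snd) (fX m0 c o1)
    (fY m0 c o1 o2 o3) δ h.pos
  have hδ := h.pos
  set U := F.image Prod.snd with hU
  set A := F.image Prod.fst with hA
  set N := nrm S (fX m0 c o1) (fY m0 c o1 o2 o3) with hN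
  have hNP : N = np S m0 c o1 o2 o3 := (np_eq S m0 c o1 o2 o3).symm
  have hU1 : ∀ q ∈ U, ∃ e ∈ F, e.2 = q := fun q hq => mem_image.1 hq
  have hA1 : ∀ a ∈ A, ∃ e ∈ F, e.1 = a := fun a ha => mem_image.1 ha
  have hUs : ∀ q ∈ U, 0 < σ * chV m0 c q := by
    intro q hq
    obtain ⟨e, he, rfl⟩ := hU1 q hq
    exact hside e he
  have hUQ : ∀ q ∈ U, q ∈ Q := by
    intro q hq
    obtain ⟨e, he, rfl⟩ := hU1 q hq
    exact (h.fl e he).qQ
  have hAQ : ∀ a ∈ A, a ∈ Q := by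
    intro q hq
    obtain ⟨e, he, rfl⟩ := hA1 q hq
    exact (h.fl e he).aQ
  have hNinj : Set.InjOn N (U : Set Pt) := by
    intro v hv w hw hvw
    rw [hNP] at hvw
    exact np_inj hV h he0 hS (hUs v hv) (hUs w hw) hvw
  have hμinj : Set.InjOn (mu o1 o2 o3) (A : Set Pt) := mu_injOn hV h
  have hFU : ∀ e ∈ F, e.2 ∈ U := fun e he => mem_image_of_mem _ he
  have hFA : ∀ e ∈ F, e.1 ∈ A := fun e he => mem_image_of_mem _ he
  set ia : ℝ → Pt := Function.invFunOn (mu o1 o2 o3) (A : Set Pt) with hia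
  set ip : ℝ × ℝ → Pt := Function.invFunOn N (U : Set Pt) with hip
  have ia_eq : ∀ a ∈ A, ia (mu o1 o2 o3 a) = a := fun a ha => hμinj.leftInvOn_invFunOn ha
  have ip_eq : ∀ q ∈ U, ip (N q) = q := fun q hq => hNinj.leftInvOn_invFunOn hq
  set om : ℝ → ℝ × ℝ → ℕ := fun α z => Wd (ia α, ip z) with hom
  have om_eq : ∀ e ∈ F, om (mu o1 o2 o3 e.1) (N e.2) = Wd e := by
    intro e he
    rw [hom]
    simp only
    rw [ia_eq _ (hFA e he), ip_eq _ (hFU e he)]
  set E : Finset (ℝ × (ℝ × ℝ)) := F.image fun e => (mu o1 o2 o3 e.1, N e.2) with hE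
  have memE : ∀ p ∈ E, ∃ e ∈ F, p = (mu o1 o2 o3 e.1, N e.2) := by
    intro p hp
    obtain ⟨e, he, h1⟩ := mem_image.1 hp
    exact ⟨e, he, h1.symm⟩
  set PPs : Finset Pt → Finset (ℝ × ℝ) := fun M => PP M σ m0 c (1 / S) (-(chU c o1 / S)) 0
    (cc o1 o2 o3 / S) (-(cc o1 o2 o3 * chU c o2 / S)) 0 with hPPs
  have memPP : ∀ M : Finset Pt, ∀ q ∈ M, 0 < σ * chV m0 c q → N q ∈ PPs M := by
    intro M q hq hs
    rw [hNP, hPPs]
    exact mem_image.2 ⟨q, mem_filter.2 ⟨hq, hs⟩, rfl⟩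
  have cardPP : ∀ M : Finset Pt, #(PPs M) ≤ #M := by
    intro M
    rw [hPPs]
    exact card_image_le.trans (card_filter_le _ _)
  set zc : ℝ → ℕ → ℝ := fun α w =>
    if hx : ∃ e ∈ F, mu o1 o2 o3 e.1 = α ∧ Wd e = w then
      fZ m0 c o1 o2 (Classical.choose hx).1 (Classical.choose hx).2 / S else 0 with hzc
  refine ⟨S, PPs Q, A.image (mu o1 o2 o3), E, om, fun w => PPs (R w), zc, hS, hδS, ?_⟩
  constructor
  -- hK
  · linarith
  -- δ0
  · positivity
  -- δ1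
  · exact (div_le_one hS).2 hδS
  -- n1
  · exact hlam
  -- m0
  · exact hm0
  -- nm
  · rw [le_div_iff₀ (by positivity)]
    have e1 : lam ^ 4 * lam ^ 2 = lam ^ 6 := by ring
    rw [e1]
    exact hQ
  -- subG
  · intro z hz
    obtain ⟨q, hq, rfl⟩ := mem_image.1 hz
    exact memPP Q q (hUQ q hq) (hUs q hq)
  -- box
  · intro z hz
    obtain ⟨q, hq, rfl⟩ := mem_image.1 hz
    exact nrm_box hS (hbox q hq)
  -- cQ
  · have h1 : (#(PPs Q) : ℝ) ≤ #Q := by exact_mod_cast cardPP Q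
    have h2 : 216 * K * lam ^ 2 * (#Q / lam ^ 2) = 216 * K * #Q := by
      field_simp
    rw [h2]
    nlinarith
  -- memE
  · intro p hp
    obtain ⟨e, he, rfl⟩ := memE p hp
    exact ⟨mem_image_of_mem _ (hFA e he), mem_image_of_mem _ (hFU e he)⟩
  -- cE
  · have h1 : #E = #F := by
      rw [hE]
      apply card_image_of_injOn
      intro e he e' he' hee
      have h2 := congrArg Prod.fst hee
      have h3 := congrArg Prod.snd hee
      simp only at h2 h3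
      exact Prod.ext (hμinj (hFA e he) (hFA e' he') h2) (hNinj (hFU e he) (hFU e' he') h3)
    rw [h1]
    have h2 : lam ^ 3 * ((#Q : ℝ) / lam ^ 2) ^ 2 = (#Q : ℝ) ^ 2 / lam := by
      field_simp
    rw [h2, div_le_iff₀ hlam0]
    have h3 : (0 : ℝ) ≤ lam * #F := by positivity
    calc (#Q : ℝ) ^ 2 ≤ K * lam * #F := h.card
      _ = K * (lam * #F) := by ring
      _ ≤ 216 * K * (lam * #F) := mul_le_mul_of_nonneg_right hKm h3
      _ = 216 * K * #F * lam := by ring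
  -- cA
  · have h1 : A ⊆ R w0 := by
      intro a ha
      obtain ⟨e, he, rfl⟩ := hA1 a ha
      exact (h.fl e he).jc.2.1
    have h2 : (#(A.image (mu o1 o2 o3)) : ℝ) ≤ #(R w0) := by
      exact_mod_cast card_image_le.trans (card_le_card h1)
    have h3 := hV.cardR w0 h.w0W
    have h4 : 216 * K * lam * (#Q / lam ^ 2) = 216 * K * #Q / lam := by
      field_simp
    rw [h4, le_div_iff₀ hlam0]
    calc (#(A.image (mu o1 o2 o3)) : ℝ) * lam ≤ #(R w0) * lam :=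
          mul_le_mul_of_nonneg_right h2 hlam0.le
      _ = lam * #(R w0) := by ring
      _ ≤ K' * #Q := h3
      _ ≤ 216 * K * #Q := mul_le_mul_of_nonneg_right (by linarith) hq0.le
  -- absA
  · intro α hα
    obtain ⟨a, ha, rfl⟩ := mem_image.1 hα
    obtain ⟨e, he, rfl⟩ := hA1 a ha
    have := h.nice e he
    constructor
    · nlinarith [this.1]
    · linarith [this.2]
  -- omW
  · intro p hp
    obtain ⟨e, he, rfl⟩ := memE p hp
    show om (mu o1 o2 o3 e.1) (N e.2) ∈ W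
    rw [om_eq e he]
    exact (h.fl e he).wW
  -- omR
  · intro p hp
    obtain ⟨e, he, rfl⟩ := memE p hp
    show N e.2 ∈ PPs (R (om (mu o1 o2 o3 e.1) (N e.2)))
    rw [om_eq e he]
    exact memPP _ _ (h.fl e he).jq.2.1 (hside e he)
  -- cW
  · exact hV.cardW.trans (mul_le_mul_of_nonneg_right (by linarith) (by positivity))
  -- cR
  · intro w hw
    have h2 : (#(PPs (R w)) : ℝ) ≤ #(R w) := by exact_mod_cast cardPP (R w)
    have h3 := hV.cardR w hw
    have h4 : 216 * K * lam * (#Q / lam ^ 2) = 216 * K * #Q / lam := by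
      field_simp
    rw [h4, le_div_iff₀ hlam0]
    calc (#(PPs (R w)) : ℝ) * lam ≤ #(R w) * lam :=
          mul_le_mul_of_nonneg_right h2 hlam0.le
      _ = lam * #(R w) := by ring
      _ ≤ K' * #Q := h3
      _ ≤ 216 * K * #Q := mul_le_mul_of_nonneg_right (by linarith) hq0.le
  -- touch
  · intro α hα
    obtain ⟨a, ha, rfl⟩ := mem_image.1 hα
    refine (touch_le hV hK' (hAQ a ha) _ ?_).trans
      (mul_le_mul_of_nonneg_right hKm hlam0.le)
    intro w hw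
    obtain ⟨hwW, z, hz, hzE, hzw⟩ := mem_filter'.1 hw
    obtain ⟨e, he, heq⟩ := memE _ hzE
    have h1 : mu o1 o2 o3 a = mu o1 o2 o3 e.1 := congrArg Prod.fst heq
    have h2 : z = N e.2 := congrArg Prod.snd heq
    have h3 : a = e.1 := hμinj ha (hFA e he) h1
    rw [h2, h1, om_eq e he] at hzw
    refine ⟨hwW, ?_⟩
    rw [← hzw, h3]
    exact (h.fl e he).jq.1
  -- flag
  · intro z hz w hw
    obtain ⟨q, hq, rfl⟩ := mem_image.1 hz
    have hsub : ∀ T : Finset ℝ, (∀ α ∈ T, (α, N q) ∈ E ∧ om α (N q) = w) →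
        #T ≤ #{a ∈ A | (a, q) ∈ F ∧ Wd (a, q) = w} := by
      intro T hT
      refine le_trans (card_le_card (?_ : T ⊆
        ({a ∈ A | (a, q) ∈ F ∧ Wd (a, q) = w}).image (mu o1 o2 o3))) card_image_le
      intro α hα
      obtain ⟨h1, h2⟩ := hT α hα
      obtain ⟨e, he, heq⟩ := memE _ h1
      have h3 : α = mu o1 o2 o3 e.1 := congrArg Prod.fst heq
      have h4 : N q = N e.2 := congrArg Prod.snd heq
      have h5 : q = e.2 := hNinj hq (hFU e he) h4
      rw [h3, h4, om_eq e he] at h2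
      refine mem_image.2 ⟨e.1, mem_filter.2 ⟨hFA e he, ?_, ?_⟩, h3.symm⟩
      · rw [h5]; exact he
      · rw [h5]; exact h2
    have h1 := h.flag q w
    have h2 : 216 * K * (#Q / lam ^ 2) = 216 * K * #Q / lam ^ 2 := by ring
    rw [h2, le_div_iff₀ (by positivity)]
    have h4 : (#{a ∈ A | (a, q) ∈ F ∧ Wd (a, q) = w} : ℝ) * lam ^ 2 ≤ 216 * K * #Q := by
      calc (#{a ∈ A | (a, q) ∈ F ∧ Wd (a, q) = w} : ℝ) * lam ^ 2
          = lam ^ 2 * #{a ∈ A | (a, q) ∈ F ∧ Wd (a, q) = w} := by ring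
        _ ≤ K * #Q := h1
        _ ≤ 216 * K * #Q := mul_le_mul_of_nonneg_right hKm hq0.le
    refine le_trans (mul_le_mul_of_nonneg_right ?_ (by positivity)) h4
    rw [Nat.cast_le]
    exact hsub _ fun α hα => (mem_filter'.1 hα).2
  -- cell
  · intro x y
    have h1 := h.cell (S * x) (S * y)
    have h2 : 216 * K * (#Q / lam ^ 2) = 216 * K * #Q / lam ^ 2 := by ring
    rw [h2, le_div_iff₀ (by positivity)]
    have h3 : (#{q ∈ U.image N | |q.1 - x| ≤ δ / S ∧ |q.2 - y| ≤ δ / S} : ℝ) ≤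
        #{B ∈ U | |fX m0 c o1 B - S * x| ≤ δ ∧ |fY m0 c o1 o2 o3 B - S * y| ≤ δ} := by
      exact_mod_cast nrm_cell hS U x y
    calc (#{q ∈ U.image N | |q.1 - x| ≤ δ / S ∧ |q.2 - y| ≤ δ / S} : ℝ) * lam ^ 2
        ≤ #{B ∈ U | |fX m0 c o1 B - S * x| ≤ δ ∧ |fY m0 c o1 o2 o3 B - S * y| ≤ δ} * lam ^ 2 :=
          mul_le_mul_of_nonneg_right h3 (by positivity)
      _ = lam ^ 2 * #{B ∈ U | |fX m0 c o1 B - S * x| ≤ δ ∧ |fY m0 c o1 o2 o3 B - S * y| ≤ δ} := by
          ring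
      _ ≤ K * #Q := h1
      _ ≤ 216 * K * #Q := mul_le_mul_of_nonneg_right hKm hq0.le
  -- covX
  · have h1 := nrm_covX (X := fX m0 c o1) (Y := fY m0 c o1 o2 o3) (δ := δ) hS U
    have h2 := floors_le U (fX m0 c o1) (fun q => Wd (o1, q)) hδ (by
      intro q hq q' hq' hqq
      obtain ⟨e, he, rfl⟩ := hU1 q hq
      obtain ⟨e', he', rfl⟩ := hU1 q' hq'
      exact h.wX e he e' he' hqq)
    have h3 := touch_le hV hK' (h.fl1 e0 he0).aQ (U.image fun q => Wd (o1, q)) (by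
      intro w hw
      obtain ⟨q, hq, rfl⟩ := mem_image.1 hw
      obtain ⟨e, he, rfl⟩ := hU1 q hq
      exact ⟨(h.fl1 e he).wW, (h.fl1 e he).jq.1⟩)
    have h4 : (#((U.image N).image fun q => ⌊q.1 / (δ / S)⌋) : ℝ) ≤
        2 * #(U.image fun q => Wd (o1, q)) := by exact_mod_cast h1.trans h2
    nlinarith
  -- covY
  · have h1 := nrm_covY (X := fX m0 c o1) (Y := fY m0 c o1 o2 o3) (δ := δ) hS U
    have h2 := floors_le U (fY m0 c o1 o2 o3) (fun q => Wd (o2, q)) hδ (by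
      intro q hq q' hq' hqq
      obtain ⟨e, he, rfl⟩ := hU1 q hq
      obtain ⟨e', he', rfl⟩ := hU1 q' hq'
      exact h.wY e he e' he' hqq)
    have h3 := touch_le hV hK' (h.fl2 e0 he0).aQ (U.image fun q => Wd (o2, q)) (by
      intro w hw
      obtain ⟨q, hq, rfl⟩ := mem_image.1 hw
      obtain ⟨e, he, rfl⟩ := hU1 q hq
      exact ⟨(h.fl2 e he).wW, (h.fl2 e he).jq.1⟩)
    have h4 : (#((U.image N).image fun q => ⌊q.2 / (δ / S)⌋) : ℝ) ≤
        2 * #(U.image fun q => Wd (o2, q)) := by exact_mod_cast h1.trans h2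
    nlinarith
  -- near
  · intro p hp
    obtain ⟨e, he, rfl⟩ := memE p hp
    show |(N e.2).1 + mu o1 o2 o3 e.1 * (N e.2).2 -
      zc (mu o1 o2 o3 e.1) (om (mu o1 o2 o3 e.1) (N e.2))| ≤ δ / S
    rw [om_eq e he]
    have hx : ∃ e' ∈ F, mu o1 o2 o3 e'.1 = mu o1 o2 o3 e.1 ∧ Wd e' = Wd e := ⟨e, he, rfl, rfl⟩
    have hz : zc (mu o1 o2 o3 e.1) (Wd e) =
        fZ m0 c o1 o2 (Classical.choose hx).1 (Classical.choose hx).2 / S := by
      rw [hzc]
      exact dif_pos hx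
    obtain ⟨g1, g2, g3⟩ := Classical.choose_spec hx
    rw [hz]
    apply nrm_near hS
    have g4 : (Classical.choose hx).1 = e.1 := hμinj (hFA _ g1) (hFA e he) g2
    rw [← h.Z_eq hV he, g4]
    exact h.wZ e he _ g1 g4.symm g3.symm
  -- star
  · intro al t r s₀ h₀ hal ht hr
    have h1 := star_box (m0 := m0) (o := c) (γ := 0) (γ' := 0) hV hσ (det_ne hV h he0 hS)
      al s₀ h₀ t r
    have h2 : ∀ M : Finset Pt, #{q ∈ PPs M | H537.Bx al t r s₀ h₀ q} =
        #{p ∈ PP M σ m0 c (1 / S) (-(chU c o1 / S)) 0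
          (cc o1 o2 o3 / S) (-(cc o1 o2 o3 * chU c o2 / S)) 0 |
          |p.1 + al * p.2 - s₀| ≤ t ∧ |p.2 - h₀| ≤ r} := by
      intro M
      rw [hPPs]
      congr!
    simp only [h2]
    have h3 : lam * (216 * K * (lam * (#Q / lam ^ 2) *
        (#{p ∈ PP Q σ m0 c (1 / S) (-(chU c o1 / S)) 0
          (cc o1 o2 o3 / S) (-(cc o1 o2 o3 * chU c o2 / S)) 0 |
          |p.1 + al * p.2 - s₀| ≤ t ∧ |p.2 - h₀| ≤ r} : ℝ) ^ 2 +
            (lam ^ 2 * (#Q / lam ^ 2)) ^ 2)) =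
        216 * K * (#Q * (#{p ∈ PP Q σ m0 c (1 / S) (-(chU c o1 / S)) 0
          (cc o1 o2 o3 / S) (-(cc o1 o2 o3 * chU c o2 / S)) 0 |
          |p.1 + al * p.2 - s₀| ≤ t ∧ |p.2 - h₀| ≤ r} : ℝ) ^ 2 + lam * (#Q : ℝ) ^ 2) := by
      field_simp
    refine le_of_mul_le_mul_left ?_ hlam0
    rw [h3]
    refine h1.trans ?_
    gcongr

open Classical in
/-- the dimension condition -/
theorem dim_of_mach {q e : ℕ} {S : ℝ} (hS : 0 < S) (hlam : 0 < lam)
    (hd : MDim q (9 * e) K lam Q c m0 o1 o2 o3 F δ) (hK : 2 ≤ K) :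
    H537.Dim q e (216 * K) lam (#Q / lam ^ 2) (δ / S)
      ((F.image Prod.snd).image (nrm S (fX m0 c o1) (fY m0 c o1 o2 o3))) := by
  intro x y r hr _
  have hr' : δ ≤ S * r := by
    rw [div_le_iff₀ hS] at hr
    linarith
  rcases hd (S * x) (S * y) (S * r) hr' with h1 | h1
  · left
    rw [div_pow, mul_pow] at *
    rw [mul_div_assoc', div_le_iff₀ (by positivity)]
    linarith
  · right
    have h2 : lam ^ 2 * ((#Q : ℝ) / lam ^ 2) = #Q := by field_simp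
    rw [h2]
    refine le_trans ?_ h1
    have h3 : (#{p ∈ (F.image Prod.snd).image (nrm S (fX m0 c o1) (fY m0 c o1 o2 o3)) |
        |p.1 - x| ≤ 2 * r ∧ |p.2 - y| ≤ 2 * r} : ℝ) ≤
        #{p ∈ F.image Prod.snd | |fX m0 c o1 p - S * x| ≤ 2 * (S * r) ∧
          |fY m0 c o1 o2 o3 p - S * y| ≤ 2 * (S * r)} := by
      have := nrm_cell (X := fX m0 c o1) (Y := fY m0 c o1 o2 o3) (δ := 2 * (S * r)) hS
        (F.image Prod.snd) x y
      have e1 : 2 * (S * r) / S = 2 * r := by field_simp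
      rw [e1] at this
      exact_mod_cast this
    have h4 : (216 * K) ^ e ≤ K ^ (9 * e) := by
      rw [pow_mul]
      apply pow_le_pow_left₀ (by linarith)
      have : (2 : ℝ) ^ 8 ≤ K ^ 8 := pow_le_pow_left₀ (by norm_num) hK 8
      calc 216 * K ≤ K ^ 8 * K := by
            apply mul_le_mul_of_nonneg_right _ (by linarith)
            linarith
        _ = K ^ 9 := by ring
    exact mul_le_mul h4 h3 (Nat.cast_nonneg _) (by positivity)

end main

/-- **[MACH3]**: the kill of the point-level data kills the output of the machine -/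
theorem machKill_of (h : H537.StPreKill) : StMachKill := by
  obtain ⟨e, h⟩ := h
  refine ⟨9 * e, fun q hq => ?_⟩
  obtain ⟨c₁, h⟩ := h q hq
  refine ⟨9 * c₁ + 6, ?_⟩
  intro K K' lam Q W I R hV hK' c w0 m0 o1 o2 o3 F Wd δ hM hD hlam hQ
  have hK2 : 2 ≤ K := hV.two.trans hK'
  have hK1 : 1 ≤ K := by linarith
  have hl : 1 ≤ lam := hV.one
  have hQ6 : lam ^ 6 ≤ #Q := le_trans (pow_le_pow_right₀ hl (by omega)) hQ
  obtain ⟨S, Q0, A0, E, om, R', zc, hS, _, hP⟩ := preC_of_mach hV hK' hM hQ6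
  refine h (216 * K) lam _ _ ℕ Q0 _ A0 E om W R' zc hP
    (dim_of_mach hS (by linarith) hD hK2) ?_
  have h4 : (216 * K) ^ c₁ ≤ K ^ (9 * c₁) := by
    rw [pow_mul]
    apply pow_le_pow_left₀ (by linarith)
    have : (2 : ℝ) ^ 8 ≤ K ^ 8 := pow_le_pow_left₀ (by norm_num) hK2 8
    calc 216 * K ≤ K ^ 8 * K := by
          apply mul_le_mul_of_nonneg_right _ (by linarith)
          linarith
      _ = K ^ 9 := by ring
  exact h4.trans ((pow_le_pow_right₀ hK1 (by omega)).trans hlam)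

end Vale.Agent.P065.UB.H415
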