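import Mathlib

/-!
# P065, upper bound: the cherry lemma, abstract part (helper415)

`J` is a set of ordered pairs, `L` a label, `b` a side, `θ` any function. Some `(c, w, s)` is the
centre of many pairs `(a, q)` of `J` such that `(a, c) ∈ J` has the label `w`, the side `s` and
`θ (a, c) ≤ θ (a, q)`.
-/

set_option autoImplicit false

namespace Vale.Agent.P065.UB.H415

open Finset

/-- **cherries**: pairs of `J` with the same first point, the second one with the larger `θ` -/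
theorem cherry_abs {α : Type*} [DecidableEq α] (Q : Finset α) (J : Finset (α × α))
    (L : α × α → ℕ) (b : α × α → Bool) (θ : α × α → ℝ) (D : ℕ)
    (hJ : ∀ e ∈ J, e.1 ∈ Q ∧ e.2 ∈ Q) (hne : J.Nonempty)
    (hD : ∀ c ∈ Q, #({e ∈ J | e.2 = c}.image L) ≤ D) :
    ∃ c ∈ Q, ∃ (w : ℕ) (s : Bool) (Pr : Finset (α × α)),
      #J ^ 2 ≤ 4 * D * #Q ^ 2 * #Pr ∧
      ∀ e ∈ Pr, e ∈ J ∧ (e.1, c) ∈ J ∧ L (e.1, c) = w ∧ b (e.1, c) = s ∧ θ (e.1, c) ≤ θ e := by
  classical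
  -- all cherries
  set Ch : Finset ((α × α) × (α × α)) := {p ∈ J ×ˢ J | p.1.1 = p.2.1} with hCh
  set T : Finset ((α × α) × (α × α)) := {p ∈ Ch | θ p.1 ≤ θ p.2} with hT
  have hdeg : #J = ∑ a ∈ Q, #{e ∈ J | e.1 = a} :=
    Finset.card_eq_sum_card_fiberwise fun e he => (hJ e he).1
  have hChc : #Ch = ∑ a ∈ Q, #{e ∈ J | e.1 = a} ^ 2 := by
    rw [Finset.card_eq_sum_card_fiberwise (f := fun p : (α × α) × (α × α) => p.1.1) (t := Q)
      (fun p hp => (hJ p.1 (Finset.mem_product.1 (Finset.mem_filter.1 hp).1).1).1)]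
    refine Finset.sum_congr rfl fun a _ => ?_
    rw [sq, ← Finset.card_product]
    congr 1
    ext p
    simp only [Finset.mem_filter, Finset.mem_product]
    constructor
    · rintro ⟨⟨⟨h1, h2⟩, h3⟩, h4⟩
      exact ⟨⟨h1, h4⟩, ⟨h2, h3 ▸ h4⟩⟩
    · rintro ⟨⟨h1, h4⟩, ⟨h2, h5⟩⟩
      exact ⟨⟨⟨h1, h2⟩, h4.trans h5.symm⟩, h4⟩
  have hCS : #J ^ 2 ≤ #Q * #Ch := by
    rw [hdeg, hChc]
    exact sq_sum_le_card_mul_sum_sq
  have hChT : #Ch ≤ 2 * #T := by
    have h1 : Ch ⊆ T ∪ T.image Prod.swap := by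
      intro p hp
      rw [Finset.mem_union]
      rcases le_total (θ p.1) (θ p.2) with h | h
      · exact Or.inl (Finset.mem_filter.2 ⟨hp, h⟩)
      · right
        refine Finset.mem_image.2 ⟨p.swap, Finset.mem_filter.2 ⟨?_, h⟩, Prod.swap_swap p⟩
        obtain ⟨h1, h2⟩ := Finset.mem_filter.1 hp
        obtain ⟨h3, h4⟩ := Finset.mem_product.1 h1
        exact Finset.mem_filter.2 ⟨Finset.mem_product.2 ⟨h4, h3⟩, h2.symm⟩
    calc #Ch ≤ #(T ∪ T.image Prod.swap) := Finset.card_le_card h1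
      _ ≤ #T + #(T.image Prod.swap) := Finset.card_union_le _ _
      _ ≤ #T + #T := Nat.add_le_add_left Finset.card_image_le _
      _ = 2 * #T := by ring
  -- keys
  set Ky : Finset (α × (ℕ × Bool)) :=
    Q.biUnion fun c => (({e ∈ J | e.2 = c}.image L) ×ˢ (Finset.univ : Finset Bool)).image
      fun k => (c, k) with hKy
  have hKyc : #Ky ≤ #Q * (2 * D) := by
    calc #Ky ≤ ∑ c ∈ Q, #((({e ∈ J | e.2 = c}.image L) ×ˢ (Finset.univ : Finset Bool)).image
          fun k => (c, k)) := Finset.card_biUnion_le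
      _ ≤ ∑ _c ∈ Q, 2 * D := by
          refine Finset.sum_le_sum fun c hc => Finset.card_image_le.trans ?_
          rw [Finset.card_product, Finset.card_univ, Fintype.card_bool, mul_comm]
          exact Nat.mul_le_mul_left 2 (hD c hc)
      _ = #Q * (2 * D) := by rw [Finset.sum_const, smul_eq_mul]
  set key : (α × α) × (α × α) → α × (ℕ × Bool) := fun p => (p.1.2, (L p.1, b p.1)) with hkey
  have hmaps : ∀ p ∈ T, key p ∈ Ky := by
    intro p hp
    have hp1 := (Finset.mem_product.1 (Finset.mem_filter.1 (Finset.mem_filter.1 hp).1).1).1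
    refine Finset.mem_biUnion.2 ⟨p.1.2, (hJ _ hp1).2, Finset.mem_image.2 ⟨(L p.1, b p.1), ?_, rfl⟩⟩
    exact Finset.mem_product.2 ⟨Finset.mem_image.2 ⟨p.1, Finset.mem_filter.2 ⟨hp1, rfl⟩, rfl⟩,
      Finset.mem_univ _⟩
  have hJ0 : 0 < #J := Finset.card_pos.2 hne
  have hCh0 : 0 < #Ch := by
    by_contra h
    have h0 : #Ch = 0 := by omega
    rw [h0, mul_zero] at hCS
    have : 0 < #J ^ 2 := by positivity
    omega
  have hT0 : 0 < #T := by omega
  have hKy0 : Ky.Nonempty := by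
    obtain ⟨p, hp⟩ := Finset.card_pos.1 hT0
    exact ⟨_, hmaps p hp⟩
  obtain ⟨k, hk, hmax⟩ := Finset.exists_max_image Ky (fun k => #{p ∈ T | key p = k}) hKy0
  have hTc : #T ≤ #Ky * #{p ∈ T | key p = k} := by
    rw [Finset.card_eq_sum_card_fiberwise hmaps]
    calc ∑ k' ∈ Ky, #{p ∈ T | key p = k'} ≤ ∑ _k' ∈ Ky, #{p ∈ T | key p = k} :=
          Finset.sum_le_sum fun k' hk' => hmax k' hk'
      _ = #Ky * #{p ∈ T | key p = k} := by rw [Finset.sum_const, smul_eq_mul]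
  set Pr : Finset (α × α) := {p ∈ T | key p = k}.image Prod.snd with hPr
  have hPrc : #{p ∈ T | key p = k} = #Pr := by
    rw [hPr, Finset.card_image_of_injOn]
    intro p hp p' hp' hpp
    rw [Finset.mem_coe, Finset.mem_filter] at hp hp'
    have e1 : p.1.1 = p.2.1 := (Finset.mem_filter.1 (Finset.mem_filter.1 hp.1).1).2
    have e2 : p'.1.1 = p'.2.1 := (Finset.mem_filter.1 (Finset.mem_filter.1 hp'.1).1).2
    have e3 : p.1.2 = p'.1.2 := congrArg Prod.fst (hp.2.trans hp'.2.symm)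
    have e4 : p.1.1 = p'.1.1 := by rw [e1, e2, hpp]
    exact Prod.ext (Prod.ext e4 e3) hpp
  have hkQ : k.1 ∈ Q := by
    obtain ⟨c, hc, hc'⟩ := Finset.mem_biUnion.1 hk
    obtain ⟨_, _, rfl⟩ := Finset.mem_image.1 hc'
    exact hc
  refine ⟨k.1, hkQ, k.2.1, k.2.2, Pr, ?_, ?_⟩
  · calc #J ^ 2 ≤ #Q * #Ch := hCS
      _ ≤ #Q * (2 * (#Ky * #Pr)) := by
          rw [← hPrc]
          exact Nat.mul_le_mul_left _ (hChT.trans (Nat.mul_le_mul_left 2 hTc))
      _ ≤ #Q * (2 * ((#Q * (2 * D)) * #Pr)) :=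
          Nat.mul_le_mul_left _ (Nat.mul_le_mul_left 2 (Nat.mul_le_mul_right _ hKyc))
      _ = 4 * D * #Q ^ 2 * #Pr := by ring
  · intro e he
    obtain ⟨p, hp, rfl⟩ := Finset.mem_image.1 he
    obtain ⟨hpT, hpk⟩ := Finset.mem_filter.1 hp
    obtain ⟨hpC, hθ⟩ := Finset.mem_filter.1 hpT
    obtain ⟨hpJ, he1⟩ := Finset.mem_filter.1 hpC
    obtain ⟨hp1, hp2⟩ := Finset.mem_product.1 hpJ
    have e1 : p.1.2 = k.1 := congrArg Prod.fst hpk
    have e2 : (p.2.1, k.1) = p.1 := Prod.ext he1.symm e1.symm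
    have e3 : L p.1 = k.2.1 := congrArg (fun z => z.2.1) hpk
    have e4 : b p.1 = k.2.2 := congrArg (fun z => z.2.2) hpk
    rw [e2]
    exact ⟨hp2, hp1, e3, e4, hθ⟩

end Vale.Agent.P065.UB.H415
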