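import Vale.Agent.P065.H183.JView
import Vale.Agent.P065.UB.H415.CherryAbs

/-!
# P065, upper bound: the cherry lemma (helper415)

`a' = prj m0 c a` is the vertical projection of `a` to the line `l0` of slope `m0` through `c`.
For any set `J` of joined pairs there are `c`, a window `w0`, a slope `m0 ∈ I w0` and many pairs
`(a, q) ∈ J` such that `a` is joined to `c` in `w0` and the slope of `a' q` is in the window of
`(a, q)`, EXACTLY. So all apexes `a'` are on one line, without any error.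
-/

set_option autoImplicit false

namespace Vale.Agent.P065.UB.H415

open Finset Vale.Agent.P065.UB Vale.Agent.P065.UB.RankAux Vale.Agent.P065.H183

/-- vertical projection of `a` to the line of slope `m` through `c` -/
def prj (m : ℝ) (c a : Pt) : Pt := (a.1, c.2 + m * (a.1 - c.1))

@[simp] theorem prj_fst (m : ℝ) (c a : Pt) : (prj m c a).1 = a.1 := rfl

theorem ht_prj (m : ℝ) (c a : Pt) : ht m (prj m c a) = ht m c := by
  unfold ht prj
  ring

theorem sl_symm (x y : Pt) : sl x y = sl y x := by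
  unfold sl
  rw [← neg_sub x.2 y.2, ← neg_sub x.1 y.1, neg_div_neg_eq]

theorem sl_prj (m : ℝ) {c a q : Pt} (hac : a.1 ≠ c.1) (haq : a.1 ≠ q.1) :
    sl (prj m c a) q - sl a q = (sl a c - m) * (a.1 - c.1) / (q.1 - a.1) := by
  have h1 : c.1 - a.1 ≠ 0 := sub_ne_zero.2 (Ne.symm hac)
  have h2 : q.1 - a.1 ≠ 0 := sub_ne_zero.2 (Ne.symm haq)
  have e : (c.2 - a.2) / (c.1 - a.1) * (a.1 - c.1) = a.2 - c.2 := by
    rw [← neg_sub c.1 a.1, mul_neg, div_mul_cancel₀ _ h1]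
    ring
  unfold sl prj
  rw [sub_mul, e, ← sub_div]
  congr 1
  ring

/-- the slope moves by at most `d'` if `d |a c| ≤ d' |a q|` -/
theorem sl_prj_le {m d' : ℝ} {c a q : Pt} (hac : a.1 ≠ c.1) (haq : a.1 ≠ q.1)
    (h : |sl a c - m| * |a.1 - c.1| ≤ d' * |a.1 - q.1|) :
    |sl (prj m c a) q - sl a q| ≤ d' := by
  rw [sl_prj m hac haq, abs_div, abs_mul, abs_sub_comm q.1 a.1,
    div_le_iff₀ (abs_pos.2 (sub_ne_zero.2 haq))]
  exact h

theorem jn_symm {I : ℕ → Set ℝ} {R : ℕ → Finset Pt} {w : ℕ} {x y : Pt} (h : Jn I R w x y) :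
    Jn I R w y x :=
  ⟨h.2.1, h.1, h.2.2.1.symm, by rw [sl_symm]; exact h.2.2.2⟩

open Classical in
/-- **CHERRY LEMMA** (any set `J` of joined pairs): exactly collinear apexes -/
theorem cherry (Q : Finset Pt) (W : Finset ℕ) (I : ℕ → Set ℝ) (R : ℕ → Finset Pt) (D : ℕ)
    (J : Finset (Pt × Pt)) (hne : J.Nonempty)
    (hconn : ∀ w ∈ W, (I w).OrdConnected)
    (hdisj : ∀ w ∈ W, ∀ w' ∈ W, w ≠ w' → Disjoint (I w) (I w'))
    (hJ : ∀ e ∈ J, e.1 ∈ Q ∧ e.2 ∈ Q ∧ ∃ w ∈ W, Jn I R w e.1 e.2)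
    (hD : ∀ c ∈ Q, #{w ∈ W | c ∈ R w} ≤ D) :
    ∃ c ∈ Q, ∃ w0 ∈ W, ∃ m0 ∈ I w0, ∃ Pr ⊆ J,
      #J ^ 2 ≤ 4 * D * #Q ^ 2 * #Pr ∧
      ∀ e ∈ Pr, (e.1, c) ∈ J ∧ Jn I R w0 e.1 c ∧
        ∀ w ∈ W, Jn I R w e.1 e.2 → sl (prj m0 c e.1) e.2 ∈ I w := by
  -- the label
  set L : Pt × Pt → ℕ := fun e => if h : ∃ w ∈ W, Jn I R w e.1 e.2 then h.choose else 0 with hL
  have hLs : ∀ e ∈ J, L e ∈ W ∧ Jn I R (L e) e.1 e.2 := by
    intro e he
    have h := (hJ e he).2.2
    have : L e = h.choose := by rw [hL]; simp only [dif_pos h]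
    rw [this]
    exact h.choose_spec
  have hLu : ∀ e ∈ J, ∀ w ∈ W, Jn I R w e.1 e.2 → w = L e := by
    intro e he w hw hj
    by_contra hcon
    exact (Set.disjoint_left.1 (hdisj w hw (L e) (hLs e he).1 hcon)) hj.2.2.2
      (hLs e he).2.2.2.2
  -- the slopes
  set Sl : ℕ → Finset ℝ := fun w => {e ∈ J | L e = w}.image fun e => sl e.1 e.2 with hSl
  set t1 : ℕ → ℝ := fun w => sInf (Sl w : Set ℝ) with ht1
  set t2 : ℕ → ℝ := fun w => sSup (Sl w : Set ℝ) with ht2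
  have hmem : ∀ e ∈ J, sl e.1 e.2 ∈ Sl (L e) := fun e he =>
    Finset.mem_image.2 ⟨e, Finset.mem_filter.2 ⟨he, rfl⟩, rfl⟩
  have hSlI : ∀ w, ∀ s ∈ Sl w, s ∈ I w := by
    intro w s hs
    obtain ⟨e, he, rfl⟩ := Finset.mem_image.1 hs
    obtain ⟨he', rfl⟩ := Finset.mem_filter.1 he
    exact (hLs e he').2.2.2.2
  have hle1 : ∀ e ∈ J, t1 (L e) ≤ sl e.1 e.2 := fun e he =>
    csInf_le (Finset.bddBelow _) (Finset.mem_coe.2 (hmem e he))
  have hle2 : ∀ e ∈ J, sl e.1 e.2 ≤ t2 (L e) := fun e he =>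
    le_csSup (Finset.bddAbove _) (Finset.mem_coe.2 (hmem e he))
  have hI1 : ∀ e ∈ J, t1 (L e) ∈ I (L e) := fun e he =>
    hSlI _ _ (Finset.Nonempty.csInf_mem ⟨_, hmem e he⟩)
  have hI2 : ∀ e ∈ J, t2 (L e) ∈ I (L e) := fun e he =>
    hSlI _ _ (Finset.Nonempty.csSup_mem ⟨_, hmem e he⟩)
  set d : Pt × Pt → ℝ := fun e => min (sl e.1 e.2 - t1 (L e)) (t2 (L e) - sl e.1 e.2) with hd
  set b : Pt × Pt → Bool := fun e => decide (sl e.1 e.2 - t1 (L e) ≤ t2 (L e) - sl e.1 e.2)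
    with hb
  have hDD : ∀ c ∈ Q, #({e ∈ J | e.2 = c}.image L) ≤ D := by
    intro c hc
    refine le_trans (Finset.card_le_card ?_) (hD c hc)
    intro w hw
    obtain ⟨e, he, rfl⟩ := Finset.mem_image.1 hw
    obtain ⟨he', rfl⟩ := Finset.mem_filter.1 he
    exact Finset.mem_filter.2 ⟨(hLs e he').1, (hLs e he').2.2.1⟩
  obtain ⟨c, hc, w0, s0, Pr, hcard, hPr⟩ := cherry_abs Q J L b
    (fun e => d e * |e.1.1 - e.2.1|) D (fun e he => ⟨(hJ e he).1, (hJ e he).2.1⟩) hne hDD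
  have hPrne : Pr.Nonempty := by
    rw [Finset.nonempty_iff_ne_empty]
    intro h0
    rw [h0, Finset.card_empty, mul_zero] at hcard
    have : 0 < #J ^ 2 := by
      have := Finset.card_pos.2 hne
      positivity
    omega
  -- the reference slope
  set m0 : ℝ := if s0 = true then t1 w0 else t2 w0 with hm0
  obtain ⟨e0, he0⟩ := hPrne
  obtain ⟨-, h0c, h0L, h0b, -⟩ := hPr e0 he0
  refine ⟨c, hc, w0, h0L ▸ (hLs _ h0c).1, m0, ?_, Pr, fun e he => (hPr e he).1, hcard, ?_⟩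
  · rw [hm0]
    split_ifs
    · exact h0L ▸ hI1 _ h0c
    · exact h0L ▸ hI2 _ h0c
  · intro e he
    obtain ⟨heJ, hec, heL, heb, hθ⟩ := hPr e he
    have hjc : Jn I R w0 e.1 c := heL ▸ (hLs _ hec).2
    refine ⟨hec, hjc, ?_⟩
    intro w hw hjw
    have hwL : w = L e := hLu e heJ w hw hjw
    subst hwL
    -- the distance of the slope of `(a, c)` to the end `m0` is `d (a, c)`
    have hdc : |sl e.1 c - m0| = d (e.1, c) := by
      have a1 := hle1 _ hec
      have a2 := hle2 _ hec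
      simp only [heL] at a1 a2
      rw [hd, hm0]
      simp only [heL]
      by_cases hs : s0 = true
      · rw [if_pos hs]
        have h1 : sl e.1 c - t1 w0 ≤ t2 w0 - sl e.1 c := by
          have := heb.trans hs
          rw [hb] at this
          simpa only [heL, decide_eq_true_eq] using this
        rw [min_eq_left h1, abs_of_nonneg (by linarith)]
      · rw [if_neg hs]
        have h1 : ¬ (sl e.1 c - t1 w0 ≤ t2 w0 - sl e.1 c) := by
          intro h2
          apply hs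
          rw [← heb, hb]
          simpa only [heL, decide_eq_true_eq] using h2
        rw [min_eq_right (not_le.1 h1).le, abs_of_nonpos (by linarith)]
        ring
    have hmove : |sl (prj m0 c e.1) e.2 - sl e.1 e.2| ≤ d e := by
      apply sl_prj_le hjc.2.2.1 hjw.2.2.1
      rw [hdc]
      exact hθ
    have b1 : d e ≤ sl e.1 e.2 - t1 (L e) := min_le_left _ _
    have b2 : d e ≤ t2 (L e) - sl e.1 e.2 := min_le_right _ _
    obtain ⟨b3, b4⟩ := abs_le.1 hmove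
    exact (hconn _ hw).out (hI1 e heJ) (hI2 e heJ) ⟨by linarith, by linarith⟩

end Vale.Agent.P065.UB.H415
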